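import Vale.Agent.P251.F.VGen
import Vale.Agent.P251.F.CpSeries
import Mathlib.Algebra.MvPolynomial.Coeff

/-!
# P257, A1-LOG: laws of infinite height in characteristic `p`

Over a ring in which `p = 0`, a law `F` with all `v_k(F) = 0` is `g • addLaw` for exactly one strict
series `g` without terms `x^{p^k}`, `k ≥ 1` (`existsUnique_log`); the strict series fixing the
additive law are those with terms `x^{p^k}` only (`smul_addLaw_iff`).
-/

namespace Vale.Agent.P257.H604

open MvPowerSeries Vale.Agent.P217 Vale.Agent.P251.F Finsupp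

section triangular

variable {B : Type*} [CommRing B]

/-- the lower part of `xC` of the law `strictMk b • addLaw` -/
noncomputable def rS (n : ℕ) : MvPolynomial ℕ ℤ :=
  xC Laz.bLaw n - MvPolynomial.C (dC (n + 2) : ℤ) * MvPolynomial.X n

theorem rS_mem (n : ℕ) : rS n ∈ below ℤ n := by
  have := Laz.toB_x_sub_mem n
  rw [Laz.x, map_xC, Laz.toB, Laz.univ_map_lift] at this
  exact this

theorem xC_smul_add (b : ℕ → B) (n : ℕ) : xC (strictMk b • addLaw B) n =
    (dC (n + 2) : B) * b n + MvPolynomial.aeval b (rS n) := by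
  set φ : MvPolynomial ℕ ℤ →+* B := (MvPolynomial.aeval b : MvPolynomial ℕ ℤ →ₐ[ℤ] B).toRingHom
    with hφ
  have hX : ∀ n, φ (MvPolynomial.X n) = b n := fun n => by
    exact MvPolynomial.aeval_X b n
  have h1 : strictMk b • addLaw B = Laz.bLaw.map φ := by
    rw [Laz.bLaw, InvSeries.map_smul, map_strictMk, map_addLaw]
    congr 2
    funext n
    exact (hX n).symm
  have h2 : φ (rS n) = MvPolynomial.aeval b (rS n) := rfl
  rw [h1, ← map_xC, ← h2, rS, map_sub, map_mul, hX, MvPolynomial.C_eq_coe_nat, map_natCast]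
  ring

theorem isUnit_dC {p : ℕ} [hp : Fact p.Prime] (hB : (p : B) = 0) {N : ℕ}
    (h : ¬ ∃ k, N = p ^ k) : IsUnit ((dC N : ℕ) : B) := by
  by_cases hN : IsPrimePow N
  · obtain ⟨l, k, hl, hk, rfl⟩ := hN
    have hl' : l.Prime := hl.nat_prime
    rw [dC_pow hl' hk.ne']
    have hlp : l ≠ p := by
      rintro rfl
      exact h ⟨k, rfl⟩
    have hc : Nat.Coprime l p := (Nat.coprime_primes hl' hp.out).2 hlp
    have h1 := Nat.gcd_eq_gcd_ab l p
    rw [hc] at h1
    have h2 := congrArg (Int.cast : ℤ → B) h1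
    push_cast at h2
    rw [hB, zero_mul, add_zero] at h2
    exact IsUnit.of_mul_eq_one _ h2.symm
  · rw [dC_of_not hN, Nat.cast_one]
    exact isUnit_one

end triangular

section log

variable {B : Type*} [CommRing B]

open Classical in
/-- the coefficients of the normal form isomorphism -/
noncomputable def logb (p : ℕ) (F : Law B) : ℕ → B
  | n => if h : IsUnit ((dC (n + 2) : ℕ) : B) ∧ ¬ ∃ k, n + 2 = p ^ k then
      ((h.1.unit⁻¹ : Bˣ) : B) * (xC F n -
        MvPolynomial.aeval (fun i => if _hi : i < n then logb p F i else 0) (rS n)) else 0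
termination_by n => n
decreasing_by exact _hi

theorem logb_pow {p : ℕ} {F : Law B} {n : ℕ} (h : ∃ k, n + 2 = p ^ k) : logb p F n = 0 := by
  rw [logb, dif_neg (fun h' => h'.2 h)]

theorem logb_spec {p : ℕ} [hp : Fact p.Prime] (hB : (p : B) = 0) {F : Law B} {n : ℕ}
    (h : ¬ ∃ k, n + 2 = p ^ k) :
    (dC (n + 2) : B) * logb p F n + MvPolynomial.aeval (logb p F) (rS n) = xC F n := by
  have hu := isUnit_dC hB h
  have h1 : logb p F n = ((hu.unit⁻¹ : Bˣ) : B) * (xC F n -
      MvPolynomial.aeval (logb p F) (rS n)) := by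
    rw [logb, dif_pos ⟨hu, h⟩]
    congr 2
    refine aeval_congr_below (fun i hi => ?_) (rS_mem n)
    rw [dif_pos hi]
  rw [h1, ← mul_assoc, hu.mul_val_inv, one_mul, sub_add_cancel]

theorem addLaw_subst {τ : Type*} {a b : MvPowerSeries τ B} (ha : constantCoeff a = 0)
    (hb : constantCoeff b = 0) :
    MvPowerSeries.subst ![a, b] (addLaw B).toFG.toPowerSeries = a + b := by
  have hs := hasSubst_cons ha hb
  have h1 : (addLaw B).toFG.toPowerSeries = X 0 + X 1 := rfl
  rw [h1, MvPowerSeries.subst_add hs, MvPowerSeries.subst_X hs, MvPowerSeries.subst_X hs]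
  rfl

theorem multSeries_addLaw (m : ℕ) :
    multSeries (addLaw B).toFG m = (m : PowerSeries B) * PowerSeries.X := by
  induction m with
  | zero =>
    rw [Nat.cast_zero, zero_mul]
    rfl
  | succ m ih =>
    rw [multSeries_succ, ih, addLaw_subst, Nat.cast_succ, add_mul, one_mul]
    · rw [← ih]
      exact constantCoeff_multSeries _ m
    · exact PowerSeries.constantCoeff_X

theorem vv_addLaw {p : ℕ} (hB : (p : B) = 0) (k : ℕ) : vv p k (addLaw B) = 0 := by
  rw [vv, multSeries_addLaw]
  have : (p : PowerSeries B) = PowerSeries.C (p : B) := (map_natCast _ _).symm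
  rw [this, hB, map_zero, zero_mul, map_zero]

theorem vv_smul_eq_zero {p : ℕ} [hp : Fact p.Prime] {F : Law B} (hF : ∀ k, vv p k F = 0)
    (g : InvSeries B) (k : ℕ) : vv p k (g • F) = 0 :=
  (vv_smul_of_zero p (k + 1) F g fun i _ => hF i).1 k (Nat.lt_succ_self k)

theorem logb_smul {p : ℕ} [hp : Fact p.Prime] (hB : (p : B) = 0) {F : Law B}
    (hF : ∀ k, vv p k F = 0) : strictMk (logb p F) • addLaw B = F := by
  refine law_ext_yF (p := p) hB fun n => ?_
  by_cases h : ∃ k, n + 2 = p ^ k
  · obtain ⟨k, hk⟩ := h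
    rw [yF_eq_vv _ hk, yF_eq_vv _ hk, hF, vv_smul_eq_zero (vv_addLaw hB)]
  · rw [yF_eq_xC _ h, yF_eq_xC _ h, xC_smul_add, logb_spec hB h]

theorem eq_of_smul_addLaw_eq {p : ℕ} [hp : Fact p.Prime] (hB : (p : B) = 0) {g g' : InvSeries B}
    (hg : g ∈ strict B) (hg' : g' ∈ strict B) (h : g • addLaw B = g' • addLaw B)
    (hgp : ∀ k, k ≠ 0 → g.c (p ^ k - 1) = g'.c (p ^ k - 1)) : g = g' := by
  rw [← strictMk_c hg, ← strictMk_c hg'] at h
  have key : ∀ n, g.c (n + 1) = g'.c (n + 1) := by
    intro n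
    induction n using Nat.strong_induction_on with
    | _ n ih =>
      by_cases hn : ∃ k, n + 2 = p ^ k
      · obtain ⟨k, hk⟩ := hn
        have hk0 : k ≠ 0 := by
          rintro rfl
          rw [pow_zero] at hk
          omega
        have := hgp k hk0
        rwa [← hk, show n + 2 - 1 = n + 1 by omega] at this
      · have h1 := congrArg (fun F => xC F n) h
        simp only [xC_smul_add] at h1
        rw [aeval_congr_below (fun i hi => ih i hi) (rS_mem n)] at h1
        exact (isUnit_dC hB hn).mul_left_cancel (add_right_cancel h1)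
  apply InvSeries.ext_c
  intro n
  rcases n with _ | n
  · rw [mem_strict.1 hg, mem_strict.1 hg']
  · exact key n

/-- **A1-LOG.** The normal form isomorphism with the additive law. -/
theorem existsUnique_log {p : ℕ} [Fact p.Prime] (hB : (p : B) = 0)
    (F : Law B) (hF : ∀ k, vv p k F = 0) :
    ∃! g : InvSeries B, g ∈ strict B ∧ (∀ k, k ≠ 0 → g.c (p ^ k - 1) = 0) ∧ g • addLaw B = F := by
  have h1 : ∀ k, k ≠ 0 → (strictMk (logb p F)).c (p ^ k - 1) = 0 := by
    intro k hk
    have h2 := two_le_pow (Fact.out : p.Prime) hk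
    rw [show p ^ k - 1 = (p ^ k - 2) + 1 by omega, c_succ_strictMk]
    exact logb_pow ⟨k, by omega⟩
  refine ⟨strictMk (logb p F), ⟨strictMk_mem _, h1, logb_smul hB hF⟩, ?_⟩
  rintro g ⟨hg, hgp, hgF⟩
  exact eq_of_smul_addLaw_eq hB hg (strictMk_mem _) (hgF.trans (logb_smul hB hF).symm)
    fun k hk => by rw [hgp k hk, h1 k hk]

/-- coefficients of `f(X + Y)` -/
theorem coeff_subst_add (f : PowerSeries B) (i j : ℕ) :
    coeff (e2 i j) (PowerSeries.subst (X 0 + X 1 : MvPowerSeries (Fin 2) B) f :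
      MvPowerSeries (Fin 2) B) = ((i + j).choose i : B) * PowerSeries.coeff (i + j) f := by
  have hs : PowerSeries.HasSubst (X 0 + X 1 : MvPowerSeries (Fin 2) B) :=
    PowerSeries.HasSubst.of_constantCoeff_zero (by rw [map_add, MvPowerSeries.constantCoeff_X,
      MvPowerSeries.constantCoeff_X, add_zero])
  have hc : ∀ d, coeff (e2 i j) ((X 0 + X 1 : MvPowerSeries (Fin 2) B) ^ d) =
      if i + j = d then (d.choose i : B) else 0 := by
    intro d
    have h1 : ((X 0 + X 1 : MvPowerSeries (Fin 2) B) ^ d) =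
        (((MvPolynomial.X 0 + MvPolynomial.X 1 : MvPolynomial (Fin 2) B) ^ d :
          MvPolynomial (Fin 2) B) : MvPowerSeries (Fin 2) B) := by
      push_cast
      rfl
    rw [h1, MvPolynomial.coeff_coe, MvPolynomial.coeff_add_pow, e2_zero, e2_one]
    by_cases h : i + j = d
    · rw [if_pos h, if_pos (Finset.HasAntidiagonal.mem_antidiagonal.2 h)]
    · rw [if_neg h, if_neg (fun h' => h (Finset.HasAntidiagonal.mem_antidiagonal.1 h')), Nat.cast_zero]
  rw [PowerSeries.coeff_subst hs, finsum_eq_single _ (i + j)]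
  · rw [hc, if_pos rfl, smul_eq_mul, mul_comm]
  · intro d hd
    rw [hc, if_neg (Ne.symm hd), smul_zero]

theorem coeff_subst_X0 (f : PowerSeries B) (i j : ℕ) :
    coeff (e2 i j) (PowerSeries.subst (X 0 : MvPowerSeries (Fin 2) B) f :
      MvPowerSeries (Fin 2) B) = if j = 0 then PowerSeries.coeff i f else 0 := by
  classical
  have hs : PowerSeries.HasSubst (X 0 : MvPowerSeries (Fin 2) B) := PowerSeries.HasSubst.X 0
  have hc : ∀ d, coeff (e2 i j) ((X 0 : MvPowerSeries (Fin 2) B) ^ d) =
      if i = d ∧ j = 0 then 1 else 0 := by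
    intro d
    have h1 : (single (0 : Fin 2) d) = e2 d 0 := by rw [e2, single_zero, add_zero]
    rw [coeff_X_pow, h1]
    simp only [e2_inj]
  rw [PowerSeries.coeff_subst hs, finsum_eq_single _ i]
  · rw [hc]
    split_ifs <;> simp_all
  · intro d hd
    rw [hc, if_neg (fun h => hd h.1.symm), smul_zero]

theorem coeff_subst_X1 (f : PowerSeries B) (i j : ℕ) :
    coeff (e2 i j) (PowerSeries.subst (X 1 : MvPowerSeries (Fin 2) B) f :
      MvPowerSeries (Fin 2) B) = if i = 0 then PowerSeries.coeff j f else 0 := by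
  classical
  have hs : PowerSeries.HasSubst (X 1 : MvPowerSeries (Fin 2) B) := PowerSeries.HasSubst.X 1
  have hc : ∀ d, coeff (e2 i j) ((X 1 : MvPowerSeries (Fin 2) B) ^ d) =
      if i = 0 ∧ j = d then 1 else 0 := by
    intro d
    have h1 : (single (1 : Fin 2) d) = e2 0 d := by rw [e2, single_zero, zero_add]
    rw [coeff_X_pow, h1]
    simp only [e2_inj]
  rw [PowerSeries.coeff_subst hs, finsum_eq_single _ j]
  · rw [hc]
    split_ifs <;> simp_all
  · intro d hd
    rw [hc, if_neg (fun h => hd h.2.symm), smul_zero]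

theorem isHom_addLaw_iff (f : PowerSeries B) (hf : PowerSeries.constantCoeff f = 0) :
    IsHom (addLaw B).toFG (addLaw B).toFG f ↔
      ∀ i j, 1 ≤ i → 1 ≤ j → ((i + j).choose i : B) * PowerSeries.coeff (i + j) f = 0 := by
  have hx : ∀ k : Fin 2, constantCoeff (PowerSeries.subst (X k : MvPowerSeries (Fin 2) B) f :
      MvPowerSeries (Fin 2) B) = 0 := fun k =>
    PowerSeries.constantCoeff_subst_eq_zero (MvPowerSeries.constantCoeff_X k) _ hf
  have h0 : IsHom (addLaw B).toFG (addLaw B).toFG f ↔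
      (PowerSeries.subst (X 0 + X 1 : MvPowerSeries (Fin 2) B) f : MvPowerSeries (Fin 2) B) =
        PowerSeries.subst (X 0 : MvPowerSeries (Fin 2) B) f +
        PowerSeries.subst (X 1 : MvPowerSeries (Fin 2) B) f := by
    rw [IsHom, addLaw_subst (hx 0) (hx 1)]
    exact ⟨fun h => h.2, fun h => ⟨hf, h⟩⟩
  rw [h0]
  constructor
  · intro h i j hi hj
    have h1 := congrArg (coeff (e2 i j)) h
    rwa [map_add, coeff_subst_add, coeff_subst_X0, coeff_subst_X1, if_neg (by omega),
      if_neg (by omega), add_zero] at h1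
  · intro h
    ext d
    rw [← e2_eta d, map_add, coeff_subst_add, coeff_subst_X0, coeff_subst_X1]
    generalize d 0 = i
    generalize d 1 = j
    rcases Nat.eq_zero_or_pos i with rfl | hi
    · rw [if_pos rfl, zero_add, Nat.choose_zero_right, Nat.cast_one, one_mul]
      split_ifs with hj
      · rw [hj, PowerSeries.coeff_zero_eq_constantCoeff_apply, hf, add_zero]
      · rw [zero_add]
    · rcases Nat.eq_zero_or_pos j with rfl | hj
      · rw [if_pos rfl, if_neg (by omega), add_zero, add_zero, Nat.choose_self, Nat.cast_one,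
          one_mul]
      · rw [h i j hi hj, if_neg (by omega), if_neg (by omega), add_zero]

/-- **A1-LOG.** The strict automorphisms of the additive law in characteristic `p`. -/
theorem smul_addLaw_iff {p : ℕ} [hp : Fact p.Prime] (hB : (p : B) = 0)
    {g : InvSeries B} (_hg : g ∈ strict B) :
    g • addLaw B = addLaw B ↔ ∀ n, (¬ ∃ k, n + 1 = p ^ k) → g.c n = 0 := by
  rw [InvSeries.smul_eq_iff_isHom, isHom_addLaw_iff g.val g.cc]
  constructor
  · intro h n hn
    rcases n with _ | n
    · exact absurd ⟨0, by rw [pow_zero, zero_add]⟩ hn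
    have h1 : ∀ i ∈ Finset.Ioo 0 (n + 2),
        ((n + 2).choose i : B) * g.c (n + 1) = 0 := by
      intro i hi
      rw [Finset.mem_Ioo] at hi
      have h2 := h i (n + 2 - i) (by omega) (by omega)
      rw [show i + (n + 2 - i) = n + 2 by omega] at h2
      exact h2
    have h2 : (dC (n + 2) : B) * g.c (n + 1) = 0 := by
      have h3 : (dC (n + 2) : ℤ) = ∑ i ∈ Finset.Ioo 0 (n + 2),
          lz n i * ((n + 2).choose i : ℤ) := by
        have h4 : (dC (n + 2) : ℤ) * _ = (dC (n + 2) : ℤ) * 1 :=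
          congrArg (fun x => (dC (n + 2) : ℤ) * x) (lz_spec n)
        rw [mul_one, Finset.mul_sum] at h4
        rw [← h4]
        refine Finset.sum_congr rfl fun i hi => ?_
        rw [Finset.mem_Ioo] at hi
        rw [← dC_mul_cC (by omega) hi.2]
        push_cast
        ring
      have h5 := congrArg (Int.cast : ℤ → B) h3
      push_cast at h5
      rw [h5, Finset.sum_mul]
      refine Finset.sum_eq_zero fun i hi => ?_
      rw [mul_assoc, h1 i hi, mul_zero]
    exact (isUnit_dC hB hn).mul_left_cancel (by rw [h2, mul_zero])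
  · intro h i j hi hj
    by_cases hk : ∃ k, i + j = p ^ k
    · obtain ⟨k, hk⟩ := hk
      have hdvd : p ∣ (i + j).choose i := by
        rw [hk]
        exact hp.out.dvd_choose_pow (by omega) (by omega)
      obtain ⟨m, hm⟩ := hdvd
      rw [hm, Nat.cast_mul, hB, zero_mul, zero_mul]
    · have h1 := h (i + j - 1) (by rwa [show i + j - 1 + 1 = i + j by omega])
      rw [InvSeries.c, show i + j - 1 + 1 = i + j by omega] at h1
      rw [h1, mul_zero]

theorem lin_smul_addLaw (u : Bˣ) : InvSeries.lin u • addLaw B = addLaw B := by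
  rw [InvSeries.smul_eq_iff_isHom, isHom_addLaw_iff _ (InvSeries.lin u).cc]
  intro i j hi hj
  have e1 : (InvSeries.lin u).val = PowerSeries.C (u : B) * PowerSeries.X := rfl
  rw [e1, PowerSeries.coeff_C_mul, PowerSeries.coeff_X, if_neg (by omega), mul_zero, mul_zero]

theorem c_conj_lin (u : Bˣ) (g : InvSeries B) (n : ℕ) :
    ((InvSeries.lin u)⁻¹ * g * InvSeries.lin u).c n = (u : B) ^ n * g.c n := by
  have h1 : ((InvSeries.lin u)⁻¹ * g * InvSeries.lin u).val =
      PowerSeries.C ((u⁻¹ : Bˣ) : B) * PowerSeries.subst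
        (PowerSeries.C (u : B) * PowerSeries.X : PowerSeries B) g.val := by
    rw [mul_assoc, ← map_inv, InvSeries.mul_val, InvSeries.lin_val,
      PowerSeries.subst_mul (g * InvSeries.lin u).hs, PowerSeries.subst_X (g * InvSeries.lin u).hs,
      PowerSeries.subst_C, InvSeries.mul_val, InvSeries.lin_val]
    rfl
  have h2 : (PowerSeries.subst (PowerSeries.C (u : B) * PowerSeries.X : PowerSeries B) g.val :
      PowerSeries B) = PowerSeries.rescale (u : B) g.val := by
    rw [PowerSeries.rescale_eq_subst, PowerSeries.smul_eq_C_mul]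
  rw [InvSeries.c, h1, h2, PowerSeries.coeff_C_mul, PowerSeries.coeff_rescale, ← mul_assoc,
    pow_succ', ← mul_assoc, Units.inv_mul, one_mul]
  rfl

end log

section lg

variable {A B : Type*} [CommRing A] [CommRing B] {p : ℕ} [Fact p.Prime]

/-- the normal form isomorphism `addLaw → F` -/
noncomputable def lg (hB : (p : B) = 0) (F : Law B) (hF : ∀ k, vv p k F = 0) : InvSeries B :=
  (existsUnique_log hB F hF).choose

theorem lg_mem (hB : (p : B) = 0) (F : Law B) (hF : ∀ k, vv p k F = 0) :
    lg hB F hF ∈ strict B := (existsUnique_log hB F hF).choose_spec.1.1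

theorem lg_c (hB : (p : B) = 0) (F : Law B) (hF : ∀ k, vv p k F = 0) {k : ℕ} (hk : k ≠ 0) :
    (lg hB F hF).c (p ^ k - 1) = 0 := (existsUnique_log hB F hF).choose_spec.1.2.1 k hk

theorem lg_smul (hB : (p : B) = 0) (F : Law B) (hF : ∀ k, vv p k F = 0) :
    lg hB F hF • addLaw B = F := (existsUnique_log hB F hF).choose_spec.1.2.2

theorem eq_lg (hB : (p : B) = 0) (F : Law B) (hF : ∀ k, vv p k F = 0) {g : InvSeries B}
    (h1 : g ∈ strict B) (h2 : ∀ k, k ≠ 0 → g.c (p ^ k - 1) = 0) (h3 : g • addLaw B = F) :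
    g = lg hB F hF := (existsUnique_log hB F hF).choose_spec.2 g ⟨h1, h2, h3⟩

theorem lg_addLaw (hB : (p : B) = 0) (hF : ∀ k, vv p k (addLaw B) = 0) :
    lg hB (addLaw B) hF = 1 := by
  refine (eq_lg hB _ hF (one_mem _) (fun k hk => ?_) (one_smul _ _)).symm
  have h2 := two_le_pow (Fact.out : p.Prime) hk
  rw [show p ^ k - 1 = (p ^ k - 2) + 1 by omega, InvSeries.c_one_succ]

theorem map_lg (φ : A →+* B) (hA : (p : A) = 0) (hB : (p : B) = 0) (F : Law A)
    (hF : ∀ k, vv p k F = 0) (hF' : ∀ k, vv p k (F.map φ) = 0) :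
    InvSeries.map φ (lg hA F hF) = lg hB (F.map φ) hF' := by
  refine eq_lg hB _ hF' (map_mem_strict φ (lg_mem hA F hF)) (fun k hk => ?_) ?_
  · rw [InvSeries.c_map, lg_c hA F hF hk, map_zero]
  · conv_rhs => rw [← lg_smul hA F hF, InvSeries.map_smul, map_addLaw]

theorem lg_scale (u : Bˣ) (hB : (p : B) = 0) (F : Law B) (hF : ∀ k, vv p k F = 0)
    (hF' : ∀ k, vv p k ((InvSeries.lin u)⁻¹ • F) = 0) :
    lg hB ((InvSeries.lin u)⁻¹ • F) hF' =
      (InvSeries.lin u)⁻¹ * lg hB F hF * InvSeries.lin u := by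
  refine (eq_lg hB _ hF' ?_ (fun k hk => ?_) ?_).symm
  · have h := strict_normal.conj_mem (lg hB F hF) (lg_mem hB F hF) (InvSeries.lin u)⁻¹
    rwa [inv_inv] at h
  · rw [c_conj_lin, lg_c hB F hF hk, mul_zero]
  · rw [mul_smul, mul_smul, lin_smul_addLaw, lg_smul]

end lg

end Vale.Agent.P257.H604
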