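import Vale.Agent.P257.H314.Desc
import Vale.Agent.P251.F.VTwist

/-!
# P257, A1c: the cocycle `ξ` with `d v_{h+1} = v_h ξ` modulo `I_h`

For `h ≥ 1` there is a homogeneous `ξ : Cob Laz 1` of weight `p^{h+1} - p^h` with
`v_h ξ = d v_{h+1}` and `d ξ = 0` modulo `I_h`, and
`ξ = v_h^{p-1} c - c^{p^h}` modulo `I_h` and the coefficients `c_1, …, c_{p-2}` of the isomorphism,
where `c = c_{p-1}`.
-/

namespace Vale.Agent.P257.H604

open Vale.Agent.P217 Vale.Agent.P251.F Vale.Agent.P257.H314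

section ring

variable {A : Type} [CommRing A]

/-- kill the variables `c_1, …, c_{p-2}` -/
noncomputable def kill (A : Type) [CommRing A] (p : ℕ) : Cob A 1 →+* Cob A 1 :=
  MvPolynomial.eval₂Hom MvPolynomial.C fun im => if im.2 + 2 < p then 0 else MvPolynomial.X im

@[simp] theorem kill_C (p : ℕ) (a : A) :
    kill A p (MvPolynomial.C a) = MvPolynomial.C a := by simp [kill]

theorem kill_X (p : ℕ) (im : Fin 1 × ℕ) :
    kill A p (MvPolynomial.X im) = if im.2 + 2 < p then 0 else MvPolynomial.X im := by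
  simp [kill]

/-- the ideal generated by `c_1, …, c_{p-2}` -/
noncomputable def lowI (A : Type) [CommRing A] (p : ℕ) : Ideal (Cob A 1) :=
  Ideal.span {x | ∃ m, m + 2 < p ∧ x = MvPolynomial.X ((0 : Fin 1), m)}

theorem X_mem_lowI {p m : ℕ} (hm : m + 2 < p) :
    (MvPolynomial.X ((0 : Fin 1), m) : Cob A 1) ∈ lowI A p :=
  Ideal.subset_span ⟨m, hm, rfl⟩

theorem sub_kill_mem (p : ℕ) (z : Cob A 1) : z - kill A p z ∈ lowI A p := by
  induction z using MvPolynomial.induction_on with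
  | C a => rw [kill_C, sub_self]; exact Ideal.zero_mem _
  | add x y hx hy =>
    rw [map_add, add_sub_add_comm]
    exact Ideal.add_mem _ hx hy
  | mul_X x im hx =>
    rw [map_mul, kill_X]
    obtain ⟨i, m⟩ := im
    obtain rfl : i = 0 := Subsingleton.elim _ _
    split_ifs with hm
    · rw [mul_zero, sub_zero]
      exact Ideal.mul_mem_left _ _ (X_mem_lowI hm)
    · rw [← sub_mul]
      exact Ideal.mul_mem_right _ _ hx

theorem univ_g_one_c_succ (k : ℕ) :
    ((Cob.univ A 1).g 1).c (k + 1) = MvPolynomial.X ((0 : Fin 1), k) := by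
  have h1 : (Cob.univ A 1).g 1 = (Cob.univ A 1).g (Fin.succ 0) := rfl
  rw [h1, Cob.univ_g_succ, c_succ_strictMk]

/-- the subring of the functions of `c_1, …, c_{p-2}` -/
noncomputable def lowS (A : Type) [CommRing A] (p : ℕ) : Subring (Cob A 1) :=
  RingHom.eqLocus (kill A p) (MvPolynomial.C.comp MvPolynomial.constantCoeff)

theorem mem_lowS {p : ℕ} {z : Cob A 1} : z ∈ lowS A p ↔
    kill A p z = MvPolynomial.C (MvPolynomial.constantCoeff z) := Iff.rfl

theorem C_mem_lowS (p : ℕ) (a : A) : (MvPolynomial.C a : Cob A 1) ∈ lowS A p := by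
  rw [mem_lowS, kill_C, MvPolynomial.constantCoeff_C]

theorem c_mem_lowS {p k : ℕ} (hk : k + 1 < p) : ((Cob.univ A 1).g 1).c k ∈ lowS A p := by
  rcases k with _ | k
  · rw [(mem_strict.1 ((Cob.univ A 1).strict 1))]
    exact Subring.one_mem _
  · rw [univ_g_one_c_succ, mem_lowS, kill_X, if_pos (by simpa using hk),
      MvPolynomial.constantCoeff_X, map_zero]

theorem map_constantCoeff_g :
    InvSeries.map (MvPolynomial.constantCoeff : Cob A 1 →+* A) ((Cob.univ A 1).g 1) = 1 := by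
  apply InvSeries.ext_c
  intro n
  rw [InvSeries.c_map]
  rcases n with _ | n
  · rw [(mem_strict.1 ((Cob.univ A 1).strict 1)), map_one, InvSeries.c_zero_one]
  · rw [univ_g_one_c_succ, MvPolynomial.constantCoeff_X, InvSeries.c_one_succ]

/-- The change of `v_{h+1}` under `f = x + c x^p + …` for a law with `v_0 = … = v_{h-1} = 0`. -/
theorem kill_vv_smul {p : ℕ} [hp : Fact p.Prime] (hA : (p : A) = 0) {h : ℕ} {F : Law A}
    (hF : ∀ i < h, vv p i F = 0) :
    kill A p (vv p (h + 1) ((Cob.univ A 1).g 1 • F.map (MvPolynomial.C : A →+* Cob A 1))) =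
      MvPolynomial.C (vv p (h + 1) F) +
      (MvPolynomial.C (vv p h F) ^ p * MvPolynomial.X ((0 : Fin 1), p - 2) -
        MvPolynomial.C (vv p h F) * MvPolynomial.X ((0 : Fin 1), p - 2) ^ (p ^ h)) := by
  have hp2 := hp.out.two_le
  have hB : ((p : ℕ) : Cob A 1) = 0 := by
    rw [← map_natCast (MvPolynomial.C : A →+* Cob A 1) p, hA, map_zero]
  have hF' : ∀ i < h, vv p i (F.map (MvPolynomial.C : A →+* Cob A 1)) = 0 := by
    intro i hi
    rw [vv_map, hF i hi, map_zero]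
  have h1 := vv_add_smul_sub_mem hB hF' (lowS A p) (fun k => by
    rw [Law.map_toFG, ← map_multSeries, PowerSeries.coeff_map]
    exact C_mem_lowS p _) ((Cob.univ A 1).strict 1) one_ne_zero (fun k hk => c_mem_lowS (by
      rw [pow_one] at hk; omega))
  rw [pow_one, show p - 1 = (p - 2) + 1 by omega, univ_g_one_c_succ, vv_map, mem_lowS] at h1
  have h2 : MvPolynomial.constantCoeff
      (vv p (h + 1) ((Cob.univ A 1).g 1 • F.map (MvPolynomial.C : A →+* Cob A 1))) =
      vv p (h + 1) F := by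
    rw [← vv_map, InvSeries.map_smul, map_constantCoeff_g, one_smul, Law.map_map]
    congr 1
    have h3 : (MvPolynomial.constantCoeff : Cob A 1 →+* A).comp MvPolynomial.C = RingHom.id A := by
      ext a
      simp
    rw [h3, Law.map_id]
  have h4 : kill A p (MvPolynomial.X ((0 : Fin 1), p - 2)) =
      (MvPolynomial.X ((0 : Fin 1), p - 2) : Cob A 1) := by
    rw [kill_X, if_neg (by dsimp only; omega)]
  have hph : p ^ h ≠ 0 := pow_ne_zero h hp.out.ne_zero
  simp only [map_sub, map_mul, map_pow, kill_C, h4, h2, MvPolynomial.constantCoeff_X,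
    MvPolynomial.constantCoeff_C, mul_zero, zero_pow hph, sub_zero] at h1
  linear_combination h1

end ring

section laz

variable {p h : ℕ}

theorem C_v_ne_zero [Fact p.Prime] :
    (MvPolynomial.C (Ideal.Quotient.mk (Laz.I p h) (Laz.v p h)) : Cob (QI p h) 1) ≠ 0 := by
  intro h0
  rw [MvPolynomial.C_eq_zero, Ideal.Quotient.eq_zero_iff_mem] at h0
  exact v_notMem_I p le_rfl h0

theorem map_univ_g_one :
    InvSeries.map (Cob.mapRing (Ideal.Quotient.mk (Laz.I p h)) 1) ((Cob.univ Laz 1).g 1) =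
      (Cob.univ (QI p h) 1).g 1 := by
  apply InvSeries.ext_c
  intro n
  rw [InvSeries.c_map]
  rcases n with _ | n
  · rw [(mem_strict.1 ((Cob.univ Laz 1).strict 1)), map_one,
      (mem_strict.1 ((Cob.univ (QI p h) 1).strict 1))]
  · rw [univ_g_one_c_succ, univ_g_one_c_succ, Cob.mapRing, MvPolynomial.map_X]

theorem d_v_eq (i : ℕ) : Cob.d 0 (MvPolynomial.C (Laz.v p i) : Cob Laz 0) =
    vv p i ((Cob.univ Laz 1).g 1 • Laz.univ.map (MvPolynomial.C : Laz →+* Cob Laz 1)) -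
      MvPolynomial.C (Laz.v p i) := by
  rw [Cob.d_apply, Fin.sum_univ_two]
  have e0 : Cob.map (N := Laz) (Fin.succAbove (0 : Fin 2)) (MvPolynomial.C (Laz.v p i)) =
      vv p i ((Cob.univ Laz 1).g 1 • Laz.univ.map (MvPolynomial.C : Laz →+* Cob Laz 1)) := by
    rw [Cob.map, Cob.ev_C, Laz.map_v]
    congr 1
    exact LawRing.law_act _ _
  have e1 : Cob.map (N := Laz) (Fin.succAbove (1 : Fin 2)) (MvPolynomial.C (Laz.v p i)) =
      MvPolynomial.C (Laz.v p i) := by
    rw [Cob.map, Cob.ev_C, Laz.map_v]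
    have : Laz.univ.map (((Cob.univ Laz 1).res (Fin.succAbove (1 : Fin 2))).pt) =
      ((Cob.univ Laz 1).g 0) • Laz.univ.map (Cob.univ Laz 1).pt := LawRing.law_act _ _
    rw [this, Cob.univ_g_zero, one_smul, ← Laz.map_v]
    rfl
  rw [e0, e1]
  simp [sub_eq_add_neg]

/-- **A1c.** The cocycle `ξ` with `d v_{h+1} = v_h ξ` modulo `I_h`. -/
theorem exists_xi [Fact p.Prime] (hh : 1 ≤ h) : ∃ ξ : Cob Laz 1,
    Cob.IsWt ((p : ℤ) ^ (h + 1) - (p : ℤ) ^ h) ξ ∧
    Cob.d 0 (MvPolynomial.C (Laz.v p (h + 1)) : Cob Laz 0) -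
      ξ * MvPolynomial.C (Laz.v p h) ∈ IC p h 1 ∧
    Cob.d 1 ξ ∈ IC p h 2 ∧
    Cob.mapRing (Ideal.Quotient.mk (Laz.I p h)) 1 ξ -
      (MvPolynomial.C (Ideal.Quotient.mk (Laz.I p h) (Laz.v p h)) ^ (p - 1) *
        MvPolynomial.X ((0 : Fin 1), p - 2) - MvPolynomial.X ((0 : Fin 1), p - 2) ^ (p ^ h)) ∈
      lowI (QI p h) p := by
  have hp2 : 2 ≤ p := (Fact.out : p.Prime).two_le
  set x : Cob Laz 1 := Cob.d 0 (MvPolynomial.C (Laz.v p (h + 1)) : Cob Laz 0) with hx
  have hxw : Cob.IsWt ((p : ℤ) ^ (h + 1) - 1) x := (vw p (h + 1) 0).2.d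
  have hxI : x ∈ IC p (h + 1) 1 := by
    rw [hx, Cob.d_apply, Fin.sum_univ_two]
    have h0 := map_v_sub_mem (p := p) (h := h + 1) (m := 0) (n := 1) (Fin.succAbove (0 : Fin 2))
    have h1 := map_v_sub_mem (p := p) (h := h + 1) (m := 0) (n := 1) (Fin.succAbove (1 : Fin 2))
    have h2 := sub_mem h0 h1
    simp only [Fin.val_zero, pow_zero, one_smul, Fin.val_one, pow_one, neg_smul]
    convert h2 using 1
    abel
  obtain ⟨b, hb, hxb⟩ := exists_of_mem_succ hxw hxI
  refine ⟨b, ?_, hxb, ?_, ?_⟩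
  · convert hb using 1
    ring
  · have h3 : Cob.d 1 b * MvPolynomial.C (Laz.v p h) ∈ IC p h 2 := by
      have h4 := sub_mem (neg_mem (d_mem_IC hxb)) (d_mul_v_sub_mem (p := p) (h := h) b)
      rw [map_sub, hx, Cob.d_d, zero_sub, neg_neg] at h4
      convert h4 using 1
      abel
    apply mem_map_C_I_of_v_mul p le_rfl
    rw [mul_comm]
    exact h3
  · set m := Cob.mapRing (Ideal.Quotient.mk (Laz.I p h)) 1 with hm
    have h5 : m x = m b * MvPolynomial.C (Ideal.Quotient.mk (Laz.I p h) (Laz.v p h)) := by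
      rw [← mapRing_eq_zero_iff, map_sub, map_mul, sub_eq_zero] at hxb
      rw [hm, hxb, Cob.mapRing, MvPolynomial.map_C]
    set F : Law (QI p h) := Laz.univ.map (Ideal.Quotient.mk (Laz.I p h)) with hF
    have hFv : ∀ i, vv p i F = Ideal.Quotient.mk (Laz.I p h) (Laz.v p i) := fun i =>
      (Laz.map_v p i _).symm
    have h6 : m x = vv p (h + 1) ((Cob.univ (QI p h) 1).g 1 •
        F.map (MvPolynomial.C : QI p h →+* Cob (QI p h) 1)) -
        MvPolynomial.C (Ideal.Quotient.mk (Laz.I p h) (Laz.v p (h + 1))) := by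
      rw [hx, d_v_eq, map_sub, ← vv_map, InvSeries.map_smul, hm, map_univ_g_one, Law.map_map,
        Cob.mapRing, MvPolynomial.map_C, hF, Law.map_map]
      congr 4
      ext a
      simp
    have hA : ((p : ℕ) : QI p h) = 0 := by
      rw [← vv_zero p F, hFv, Ideal.Quotient.eq_zero_iff_mem]
      exact vv_mem_Ih (by omega) _
    have hF0 : ∀ i < h, vv p i F = 0 := by
      intro i hi
      rw [hFv, Ideal.Quotient.eq_zero_iff_mem]
      exact vv_mem_Ih hi _
    have h7 := kill_vv_smul hA hF0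
    have h8 := congrArg (kill (QI p h) p) (h5.symm.trans h6)
    rw [map_mul, map_sub, kill_C, kill_C, h7, hFv, hFv] at h8
    set V : Cob (QI p h) 1 := MvPolynomial.C (Ideal.Quotient.mk (Laz.I p h) (Laz.v p h)) with hV
    set X : Cob (QI p h) 1 := MvPolynomial.X ((0 : Fin 1), p - 2) with hX
    have h9 : kill (QI p h) p (m b) = V ^ (p - 1) * X - X ^ (p ^ h) := by
      have := isPrime_I p h
      apply mul_right_cancel₀ (C_v_ne_zero (p := p) (h := h))
      rw [h8]
      have : V ^ p = V ^ (p - 1) * V := by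
        rw [← pow_succ]
        congr 1
        omega
      rw [this]
      ring
    rw [← h9]
    exact sub_kill_mem p (m b)

/-- The values of `ξ` on the chains `F → f • F` with `I_h(F) = 0`, `f = x + c x^p + …`. -/
theorem ev_of_kill {B : Type} [CommRing B] {ξ : Cob Laz 1} [Fact p.Prime]
    (hξ : Cob.mapRing (Ideal.Quotient.mk (Laz.I p h)) 1 ξ -
      (MvPolynomial.C (Ideal.Quotient.mk (Laz.I p h) (Laz.v p h)) ^ (p - 1) *
        MvPolynomial.X ((0 : Fin 1), p - 2) - MvPolynomial.X ((0 : Fin 1), p - 2) ^ (p ^ h)) ∈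
      lowI (QI p h) p) (c : Chain Laz 1 B) (hI : ∀ a ∈ Laz.I p h, c.pt a = 0)
    (hc : ∀ k, 1 ≤ k → k + 1 < p → (c.g 1).c k = 0) :
    Cob.ev c ξ = c.pt (Laz.v p h) ^ (p - 1) * (c.g 1).c (p - 1) - (c.g 1).c (p - 1) ^ (p ^ h) := by
  have hp2 : 2 ≤ p := (Fact.out : p.Prime).two_le
  set c' : Chain (QI p h) 1 B := ⟨Ideal.Quotient.lift (Laz.I p h) c.pt hI, c.g, c.strict, c.zero⟩
    with hc'
  have h1 : ∀ z : Cob Laz 1, Cob.ev c z =
      Cob.ev c' (Cob.mapRing (Ideal.Quotient.mk (Laz.I p h)) 1 z) := by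
    intro z
    have : Cob.ev c = (Cob.ev c').comp (Cob.mapRing (Ideal.Quotient.mk (Laz.I p h)) 1) := by
      refine MvPolynomial.ringHom_ext (fun a => ?_) (fun im => ?_)
      · rw [Cob.ev_C, RingHom.comp_apply, Cob.mapRing, MvPolynomial.map_C, Cob.ev_C, hc',
          Ideal.Quotient.lift_mk]
      · rw [Cob.ev_X, RingHom.comp_apply, Cob.mapRing, MvPolynomial.map_X, Cob.ev_X]
    rw [this, RingHom.comp_apply]
  have h2 : ∀ z ∈ lowI (QI p h) p, Cob.ev c' z = 0 := by
    intro z hz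
    rw [← RingHom.mem_ker]
    refine (Ideal.span_le.2 ?_) hz
    rintro _ ⟨m, hm, rfl⟩
    rw [SetLike.mem_coe, RingHom.mem_ker, Cob.ev_X]
    exact hc (m + 1) (by omega) (by omega)
  have h3 := h2 _ hξ
  rw [map_sub, ← h1, sub_eq_zero] at h3
  have h4 : (c'.g (Fin.succ 0)).c (p - 2 + 1) = (c.g 1).c (p - 1) := by
    rw [show p - 2 + 1 = p - 1 by omega]
    rfl
  rw [h3, map_sub, map_mul, map_pow, map_pow, Cob.ev_C, Cob.ev_X]
  dsimp only
  rw [h4, hc', Ideal.Quotient.lift_mk]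

end laz

end Vale.Agent.P257.H604
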