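import Vale.Agent.P257.H632.Defs
import Vale.Agent.P257.H93.Wt

/-!
# P257 (helper604): words and exponents, symbols determine polynomials, weights
-/

noncomputable section

namespace Vale.Agent.P257.H604

open Vale.Agent.P257.H93 Vale.Agent.P257.H632

/-! ### base `p` digits -/

theorem sum_digits (p N m : ℕ) :
    ∑ j ∈ Finset.range m, N / p ^ j % p * p ^ j = N % p ^ m := by
  induction m with
  | zero => simp [Nat.mod_one]
  | succ m ih => rw [Finset.sum_range_succ, ih, Nat.mod_pow_succ, mul_comm (p ^ m)]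

theorem digit_of_sum {p : ℕ} (hp : 0 < p) : ∀ (M : ℕ) (a : ℕ → ℕ) (_ : ∀ j, a j < p) (j : ℕ),
    j < M → (∑ i ∈ Finset.range M, a i * p ^ i) / p ^ j % p = a j
  | 0, _, _, _, h => absurd h (Nat.not_lt_zero _)
  | M + 1, a, ha, j, h => by
    have h1 : ∑ i ∈ Finset.range (M + 1), a i * p ^ i =
        a 0 + p * ∑ i ∈ Finset.range M, a (i + 1) * p ^ i := by
      rw [Finset.sum_range_succ', pow_zero, mul_one, add_comm, Finset.mul_sum]
      congr 1
      refine Finset.sum_congr rfl fun i _ => ?_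
      ring
    rw [h1]
    cases j with
    | zero => rw [pow_zero, Nat.div_one, Nat.add_mul_mod_self_left, Nat.mod_eq_of_lt (ha 0)]
    | succ j =>
      rw [pow_succ', ← Nat.div_div_eq_div_mul, Nat.add_mul_div_left _ _ hp,
        Nat.div_eq_of_lt (ha 0), zero_add]
      exact digit_of_sum hp M (fun i => a (i + 1)) (fun i => ha _) j (Nat.lt_of_succ_lt_succ h)

/-- the value of a digit vector at a variable -/
def vl (p : ℕ) (m : Ex) (i : ℕ) : ℕ := m.sum fun v c => if v.1 = i then c * p ^ v.2 else 0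

theorem vl_eq_sum {p : ℕ} {m : Ex} {M : ℕ} (hM : ∀ v ∈ m.support, v.2 < M) (i : ℕ) :
    vl p m i = ∑ j ∈ Finset.range M, m (i, j) * p ^ j := by
  classical
  have h1 : ∑ j ∈ Finset.range M, m (i, j) * p ^ j =
      ∑ v ∈ ({i} : Finset ℕ) ×ˢ Finset.range M, m v * p ^ v.2 := by
    rw [Finset.sum_product, Finset.sum_singleton]
  rw [vl, Finsupp.sum, ← Finset.sum_filter, h1]
  refine Finset.sum_subset ?_ ?_
  · rintro ⟨a, b⟩ h
    rw [Finset.mem_filter] at h
    rw [Finset.mem_product, Finset.mem_singleton, Finset.mem_range]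
    exact ⟨h.2, hM _ h.1⟩
  · rintro ⟨a, b⟩ h h'
    rw [Finset.mem_product, Finset.mem_singleton] at h
    rw [Finset.mem_filter, not_and] at h'
    have h2 : m (a, b) = 0 := by
      by_contra hne
      exact h' (Finsupp.mem_support_iff.2 hne) h.1
    rw [h2, zero_mul]

theorem exists_bound (m : Ex) : ∃ M, ∀ v ∈ m.support, v.2 < M :=
  ⟨m.support.sup (fun v => v.2) + 1, fun _ hv =>
    Nat.lt_succ_of_le (Finset.le_sup (f := fun v : ℕ × ℕ => v.2) hv)⟩

theorem toE_apply {p n : ℕ} (l : List Ex) (k : Fin n) (i : ℕ) :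
    toE p n l (k, i) = vl p (l.getD k 0) i := by
  rw [toE, Finsupp.finsetSum_apply, Finset.sum_eq_single k]
  · rw [Finsupp.sum_apply, vl]
    refine Finsupp.sum_congr fun v _ => ?_
    rw [Finsupp.single_apply]
    simp
  · intro k' _ hk
    rw [Finsupp.sum_apply]
    refine Finset.sum_eq_zero fun v _ => ?_
    change (Finsupp.single (k', v.1) _ : (Fin n × ℕ) →₀ ℕ) (k, i) = 0
    rw [Finsupp.single_apply, if_neg]
    simp [hk]
  · intro h
    exact absurd (Finset.mem_univ _) h

/-- the digit vector of an exponent in one group of variables -/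
def dv (p : ℕ) (hp : 1 < p) (f : ℕ →₀ ℕ) : Ex :=
  Finsupp.onFinset (f.support ×ˢ Finset.range (f.sum fun _ c => c))
    (fun v => f v.1 / p ^ v.2 % p) (by
      rintro ⟨i, j⟩ h
      rw [Finset.mem_product, Finset.mem_range, Finsupp.mem_support_iff]
      have h1 : f i ≠ 0 := by
        intro h0
        simp [h0] at h
      refine ⟨h1, ?_⟩
      have h2 : f i ≤ f.sum fun _ c => c :=
        Finset.single_le_sum (f := fun i => f i) (fun _ _ => Nat.zero_le _)
          (Finsupp.mem_support_iff.2 h1)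
      refine lt_of_not_ge fun hj => h ?_
      have h3 : f i < p ^ j :=
        lt_of_lt_of_le (Nat.lt_pow_self hp) (Nat.pow_le_pow_right (by omega) (h2.trans hj))
      change f i / p ^ j % p = 0
      rw [Nat.div_eq_of_lt h3, Nat.zero_mod])

theorem dv_apply {p : ℕ} (hp : 1 < p) (f : ℕ →₀ ℕ) (i j : ℕ) :
    dv p hp f (i, j) = f i / p ^ j % p := rfl

theorem vl_dv {p : ℕ} (hp : 1 < p) (f : ℕ →₀ ℕ) (i : ℕ) : vl p (dv p hp f) i = f i := by
  obtain ⟨M, hM⟩ := exists_bound (dv p hp f)
  rw [vl_eq_sum (M := max M (f i)) (fun v hv => lt_of_lt_of_le (hM v hv) (le_max_left _ _))]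
  simp only [dv_apply]
  rw [sum_digits, Nat.mod_eq_of_lt]
  exact lt_of_lt_of_le (Nat.lt_pow_self hp) (Nat.pow_le_pow_right (by omega) (le_max_right _ _))

theorem digit_vl {p : ℕ} (hp : 0 < p) {m : Ex} (hm : ∀ v, m v < p) (i j : ℕ) :
    vl p m i / p ^ j % p = m (i, j) := by
  obtain ⟨M, hM⟩ := exists_bound m
  rw [vl_eq_sum (M := max M (j + 1)) (fun v hv => lt_of_lt_of_le (hM v hv) (le_max_left _ _))]
  exact digit_of_sum hp _ (fun j => m (i, j)) (fun _ => hm _) j
    (lt_of_lt_of_le (Nat.lt_succ_self j) (le_max_right _ _))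

/-! ### reduced words and exponents -/

variable {p : ℕ} [hp : Fact p.Prime] {n : ℕ}

/-- the reduced word of an exponent -/
def ofE (p n : ℕ) [hp : Fact p.Prime] (e : (Fin n × ℕ) →₀ ℕ) : List Ex :=
  List.ofFn fun k : Fin n => dv p hp.out.one_lt (e.curry k)

@[simp] theorem length_ofE (e : (Fin n × ℕ) →₀ ℕ) : (ofE p n e).length = n := by
  rw [ofE, List.length_ofFn]

theorem red_ofE (e : (Fin n × ℕ) →₀ ℕ) : Red p (ofE p n e) := by
  intro m hm v
  rw [ofE, List.mem_ofFn] at hm
  obtain ⟨k, rfl⟩ := hm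
  exact Nat.mod_lt _ hp.out.pos

theorem getD_ofE (e : (Fin n × ℕ) →₀ ℕ) (k : Fin n) :
    (ofE p n e).getD k 0 = dv p hp.out.one_lt (e.curry k) := by
  rw [ofE, List.getD_eq_getElem _ _ (by rw [List.length_ofFn]; exact k.2), List.getElem_ofFn]

@[simp] theorem toE_ofE (e : (Fin n × ℕ) →₀ ℕ) : toE p n (ofE p n e) = e := by
  ext ⟨k, i⟩
  rw [toE_apply, getD_ofE, vl_dv, Finsupp.curry_apply]

theorem ofE_toE {l : List Ex} (hl : l.length = n) (hr : Red p l) : ofE p n (toE p n l) = l := by
  refine List.ext_getElem (by rw [length_ofE, hl]) fun k h1 h2 => ?_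
  have hk : k < n := hl ▸ h2
  have h3 : (ofE p n (toE p n l))[k] = (ofE p n (toE p n l)).getD (⟨k, hk⟩ : Fin n) 0 :=
    (List.getD_eq_getElem _ _ h1).symm
  rw [h3, getD_ofE]
  ext ⟨i, j⟩
  rw [dv_apply, Finsupp.curry_apply, toE_apply]
  have h4 : l.getD (⟨k, hk⟩ : Fin n) 0 = l[k] := List.getD_eq_getElem _ _ h2
  rw [h4]
  exact digit_vl hp.out.pos (hr _ (List.getElem_mem h2)) i j

theorem toE_inj {l l' : List Ex} (hl : l.length = n) (hr : Red p l) (hl' : l'.length = n)
    (hr' : Red p l') (h : toE p n l = toE p n l') : l = l' := by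
  rw [← ofE_toE hl hr, h, ofE_toE hl' hr']

/-! ### factorials -/

omit hp in
theorem fac_cons (m : Ex) (l : List Ex) :
    fac (m :: l) = (m.prod fun _ c => c.factorial) * fac l := by
  rw [fac, fac, List.map_cons, List.prod_cons]

theorem fac_cast_ne_zero {l : List Ex} (hr : Red p l) : (fac l : ZMod p) ≠ 0 := by
  rw [Ne, ZMod.natCast_eq_zero_iff]
  induction l with
  | nil =>
    rw [fac, List.map_nil, List.prod_nil]
    exact hp.out.one_lt.ne' ∘ Nat.dvd_one.1
  | cons m l ih =>
    rw [fac_cons, hp.out.dvd_mul, not_or]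
    refine ⟨?_, ih fun m' hm' => hr m' (List.mem_cons_of_mem _ hm')⟩
    rw [Finsupp.prod, Prime.dvd_finsetProd_iff hp.out.prime]
    rintro ⟨v, _, hv⟩
    rw [hp.out.dvd_factorial] at hv
    exact absurd (hr m List.mem_cons_self v) (not_lt.2 hv)

/-! ### symbols -/

theorem symb_of_red {z : CobP p n} {l : List Ex} (hl : l.length = n) (hr : Red p l) :
    symb n z l = (fac l : ZMod p) * MvPolynomial.coeff (toE p n l) z := by
  rw [symb, if_pos ⟨hl, hr⟩]

theorem symb_ofE (z : CobP p n) (e : (Fin n × ℕ) →₀ ℕ) :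
    symb n z (ofE p n e) = (fac (ofE p n e) : ZMod p) * MvPolynomial.coeff e z := by
  rw [symb_of_red (length_ofE e) (red_ofE e), toE_ofE]

theorem symb_ne_zero {z : CobP p n} {l : List Ex} (h : symb n z l ≠ 0) :
    l.length = n ∧ Red p l ∧ MvPolynomial.coeff (toE p n l) z ≠ 0 := by
  unfold symb at h
  split_ifs at h with h1
  · exact ⟨h1.1, h1.2, right_ne_zero_of_mul h⟩
  · exact absurd rfl h

theorem coeff_eq_zero_iff (z : CobP p n) (e : (Fin n × ℕ) →₀ ℕ) :
    MvPolynomial.coeff e z = 0 ↔ symb n z (ofE p n e) = 0 := by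
  rw [symb_ofE, mul_eq_zero, or_iff_right (fac_cast_ne_zero (red_ofE e))]

theorem symb_injective : Function.Injective (symb (p := p) n) := by
  intro z w h
  ext e
  have h1 := congrFun h (ofE p n e)
  rw [symb_ofE, symb_ofE] at h1
  exact mul_left_cancel₀ (fac_cast_ne_zero (red_ofE e)) h1

theorem symb_eq_zero_iff {z : CobP p n} : symb n z = 0 ↔ z = 0 := by
  refine ⟨fun h => symb_injective (h.trans ?_), fun h => ?_⟩
  · funext l
    exact (symb_zero l).symm
  · subst h
    funext l
    exact symb_zero l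

theorem symb_sum {ι : Type*} (s : Finset ι) (f : ι → CobP p n) (l : List Ex) :
    symb n (∑ i ∈ s, f i) l = ∑ i ∈ s, symb n (f i) l := by
  classical
  induction s using Finset.induction_on with
  | empty => rw [Finset.sum_empty, Finset.sum_empty, symb_zero]
  | insert a s ha ih => rw [Finset.sum_insert ha, Finset.sum_insert ha, symb_add, ih]

theorem symb_neg (z : CobP p n) (l : List Ex) : symb n (-z) l = -symb n z l := by
  have h := symb_add z (-z) l
  rw [add_neg_cancel, symb_zero] at h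
  exact (neg_eq_of_add_eq_zero_right h.symm).symm

theorem symb_sub (z w : CobP p n) (l : List Ex) :
    symb n (z - w) l = symb n z l - symb n w l := by
  rw [sub_eq_add_neg, symb_add, symb_neg, sub_eq_add_neg]

/-- the cochain with symbol concentrated at one word -/
def wordP (p n : ℕ) (l : List Ex) : CobP p n :=
  MvPolynomial.monomial (toE p n l) ((fac l : ZMod p)⁻¹)

theorem symb_wordP {l : List Ex} (hl : l.length = n) (hr : Red p l) (l' : List Ex) :
    symb n (wordP p n l) l' = if l' = l then 1 else 0 := by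
  classical
  by_cases h : l'.length = n ∧ Red p l'
  · rw [symb_of_red h.1 h.2, wordP, MvPolynomial.coeff_monomial]
    split_ifs with h1 h2 h2
    · subst h2
      exact mul_inv_cancel₀ (fac_cast_ne_zero hr)
    · exact absurd (toE_inj hl hr h.1 h.2 h1).symm h2
    · exact absurd (by rw [h2]) h1
    · rw [mul_zero]
  · rw [symb, if_neg h, if_neg]
    rintro rfl
    exact h ⟨hl, hr⟩

/-- every finitely supported function on reduced words of length `n` is a symbol -/
theorem exists_symb {f : List Ex → ZMod p} (hf : ∀ l, f l ≠ 0 → l.length = n ∧ Red p l)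
    (hfin : {l | f l ≠ 0}.Finite) : ∃ z : CobP p n, symb n z = f := by
  classical
  refine ⟨∑ l ∈ hfin.toFinset, f l • wordP p n l, ?_⟩
  funext l'
  rw [symb_sum]
  by_cases h : f l' = 0
  · rw [h]
    refine Finset.sum_eq_zero fun l hl => ?_
    have h1 : f l ≠ 0 := by simpa using hl
    rw [symb_smul, symb_wordP (hf l h1).1 (hf l h1).2, if_neg, mul_zero]
    rintro rfl
    exact h1 h
  · rw [Finset.sum_eq_single l']
    · rw [symb_smul, symb_wordP (hf l' h).1 (hf l' h).2, if_pos rfl, mul_one]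
    · intro l hl hne
      have h1 : f l ≠ 0 := by simpa using hl
      rw [symb_smul, symb_wordP (hf l h1).1 (hf l h1).2, if_neg hne.symm, mul_zero]
    · intro h1
      exact absurd (by simpa using h) h1

/-! ### weights -/

omit hp in
theorem wD_eq (v : ℕ × ℕ) : wD p v = p ^ v.2 * wD p (v.1, 0) := by
  rw [wD, wD, Finset.mul_sum]
  refine Finset.sum_congr rfl fun l _ => ?_
  simp only [zero_add]
  rw [pow_add]

theorem lt_wD (v : ℕ × ℕ) : v.1 + v.2 < wD p v := by
  rw [wD, Finset.sum_range_succ]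
  have h1 : ∀ i j : ℕ, i ≤ ∑ l ∈ Finset.range i, p ^ (j + l) := by
    intro i j
    calc i = ∑ l ∈ Finset.range i, 1 := by simp
      _ ≤ _ := Finset.sum_le_sum fun l _ => Nat.one_le_pow _ _ hp.out.pos
  have h2 : v.2 < p ^ (v.2 + v.1) :=
    lt_of_lt_of_le (Nat.lt_pow_self hp.out.one_lt)
      (Nat.pow_le_pow_right hp.out.pos (Nat.le_add_right _ _))
  have h3 := h1 v.1 v.2
  omega

omit hp in
theorem lev_cons (μ : ℕ × ℕ → ℕ) (m : Ex) (l : List Ex) :
    lev μ (m :: l) = (m.sum fun v c => c * μ v) + lev μ l := by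
  rw [lev, lev, List.map_cons, List.sum_cons]

omit hp in
theorem lev_eq_sum (μ : ℕ × ℕ → ℕ) (l : List Ex) :
    lev μ l = ∑ k : Fin l.length, (l.getD k 0).sum fun v c => c * μ v := by
  rw [lev, ← List.sum_ofFn]
  congr 1
  refine List.ext_getElem (by simp) fun k h1 h2 => ?_
  rw [List.getElem_map, List.getElem_ofFn]
  have h3 : k < l.length := by simpa using h1
  change _ = (l.getD k 0).sum fun v c => c * μ v
  rw [List.getD_eq_getElem _ _ h3]

omit hp in
theorem weight_toE {l : List Ex} (hl : l.length = n) :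
    Finsupp.weight (fun ki : Fin n × ℕ => wD p (ki.2, 0)) (toE p n l) = lev (wD p) l := by
  subst hl
  rw [lev_eq_sum, toE, map_sum]
  refine Finset.sum_congr rfl fun k _ => ?_
  rw [Finsupp.sum, Finsupp.sum, map_sum]
  refine Finset.sum_congr rfl fun v _ => ?_
  rw [Finsupp.weight_single, smul_eq_mul]
  change _ * wD p (v.1, 0) = _
  rw [wD_eq v]
  ring

theorem mem_WtP_iff {z : CobP p n} {W : ℕ} :
    z ∈ WtP p n W ↔ ∀ l, symb n z l ≠ 0 → lev (wD p) l = W := by
  rw [WtP, MvPolynomial.mem_weightedHomogeneousSubmodule]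
  constructor
  · intro h l hl
    obtain ⟨h1, h2, h3⟩ := symb_ne_zero hl
    rw [← weight_toE h1]
    exact h h3
  · intro h e he
    have h1 := h (ofE p n e) (fun h0 => he ((coeff_eq_zero_iff z e).2 h0))
    rw [← h1, ← weight_toE (length_ofE e), toE_ofE]

/-- helper93's weights -/
theorem isWtP_iff {z : CobP p n} {W : ℕ} :
    IsWtP p n (((p - 1) * W : ℕ) : ℤ) z ↔ z ∈ WtP p n W := by
  have hw : ∀ i : ℕ, (p - 1) * wD p (i, 0) = p ^ (i + 1) - 1 := by
    intro i
    have h1 := Nat.geomSum_eq hp.out.two_le (i + 1)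
    have h2 : wD p (i, 0) = ∑ k ∈ Finset.range (i + 1), p ^ k := by
      rw [wD]
      simp
    rw [h2, h1]
    exact Nat.mul_div_cancel' (by simpa using Nat.sub_dvd_pow_sub_pow p 1 (i + 1))
  have hp1 : 0 < p - 1 := by
    have := hp.out.two_le
    omega
  have h2 : ∀ e : (Fin n × ℕ) →₀ ℕ, Finsupp.weight (wX p n) e =
      (((p - 1) * Finsupp.weight (fun ki : Fin n × ℕ => wD p (ki.2, 0)) e : ℕ) : ℤ) := by
    intro e
    rw [Finsupp.weight_apply, Finsupp.weight_apply, Finsupp.sum, Finsupp.sum, Finset.mul_sum,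
      Nat.cast_sum]
    refine Finset.sum_congr rfl fun ki _ => ?_
    rw [smul_eq_mul, mul_left_comm, hw ki.2, wX, nsmul_eq_mul, Nat.cast_mul,
      Nat.cast_sub (Nat.one_le_pow _ _ hp.out.pos)]
    push_cast
    ring
  rw [WtP, MvPolynomial.mem_weightedHomogeneousSubmodule]
  constructor
  · intro h e he
    have h3 := h he
    rw [h2, Nat.cast_inj] at h3
    exact Nat.eq_of_mul_eq_mul_left hp1 h3
  · intro h e he
    rw [h2, h he]

/-- only multiples of `p - 1` are weights -/
theorem exists_weight {z : CobP p n} {w : ℤ} (hz : IsWtP p n w z) (h0 : z ≠ 0) :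
    ∃ W : ℕ, w = (((p - 1) * W : ℕ) : ℤ) := by
  obtain ⟨e, he⟩ := MvPolynomial.ne_zero_iff.1 h0
  refine ⟨Finsupp.weight (fun ki : Fin n × ℕ => wD p (ki.2, 0)) e, ?_⟩
  have h1 : (MvPolynomial.monomial e 1 : CobP p n) ∈
      WtP p n (Finsupp.weight (fun ki : Fin n × ℕ => wD p (ki.2, 0)) e) :=
    MvPolynomial.isWeightedHomogeneous_monomial _ _ _ rfl
  have h2 := isWtP_iff.2 h1 (d := e) (by rw [MvPolynomial.coeff_monomial, if_pos rfl]
                                         exact one_ne_zero)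
  rw [← h2, hz he]

theorem dP_mem_WtP {z : CobP p n} {W : ℕ} (hz : z ∈ WtP p n W) : dP n z ∈ WtP p (n + 1) W :=
  isWtP_iff.1 (isWtP_iff.2 hz).dP

theorem cupP_mem_WtP {m : ℕ} {x : CobP p n} {y : CobP p m} {V W : ℕ} (hx : x ∈ WtP p n V)
    (hy : y ∈ WtP p m W) : cupP x y ∈ WtP p (n + m) (V + W) := by
  rw [← isWtP_iff, Nat.mul_add, Nat.cast_add]
  exact (isWtP_iff.2 hx).cupP (isWtP_iff.2 hy)

/-! ### finiteness -/

omit hp in
/-- finitely many words of given length with letters in a finite set -/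
theorem finite_words {S : Set Ex} (hS : S.Finite) (n : ℕ) :
    {l : List Ex | l.length = n ∧ ∀ m ∈ l, m ∈ S}.Finite := by
  induction n with
  | zero =>
    refine (Set.finite_singleton ([] : List Ex)).subset ?_
    rintro l ⟨h, _⟩
    rw [List.length_eq_zero_iff] at h
    exact h
  | succ n ih =>
    refine (Set.Finite.image2 (fun m l => m :: l) hS ih).subset ?_
    rintro l ⟨h, h2⟩
    obtain ⟨m, l', rfl⟩ := List.exists_cons_of_length_eq_add_one h
    refine ⟨m, h2 m List.mem_cons_self, l', ⟨?_, fun x hx => h2 x (List.mem_cons_of_mem _ hx)⟩,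
      rfl⟩
    simpa using h

omit hp in
theorem le_sum_of_mem {l : List Ex} {m : Ex} (h : m ∈ l) : m ≤ l.sum := by
  induction l with
  | nil => simp at h
  | cons a l ih =>
    rw [List.sum_cons]
    rcases List.mem_cons.1 h with rfl | h
    · exact le_self_add
    · exact (ih h).trans le_add_self

omit hp in
/-- finitely many words with given length and sum -/
theorem finite_sum_eq (n : ℕ) (A : Ex) : {l : List Ex | l.length = n ∧ l.sum = A}.Finite := by
  refine (finite_words (Set.finite_Iic A) n).subset ?_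
  rintro l ⟨h, h2⟩
  exact ⟨h, fun m hm => by rw [Set.mem_Iic, ← h2]; exact le_sum_of_mem hm⟩

omit hp in
theorem sum_le_lev {μ : ℕ × ℕ → ℕ} {l : List Ex} {m : Ex} (h : m ∈ l) :
    (m.sum fun v c => c * μ v) ≤ lev μ l := by
  rw [lev]
  exact List.single_le_sum (fun _ _ => Nat.zero_le _) _ (List.mem_map_of_mem h)

/-- finitely many digit vectors of bounded weight -/
theorem finite_wD_le (W : ℕ) : {m : Ex | (m.sum fun v c => c * wD p v) ≤ W}.Finite := by
  have h1 : {m : Ex | (m.sum fun v c => c * wD p v) ≤ W} ⊆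
      Set.Iic (∑ v ∈ Finset.range W ×ˢ Finset.range W, Finsupp.single v W) := by
    intro m hm
    rw [Set.mem_ofPred_eq] at hm
    rw [Set.mem_Iic]
    intro v
    by_cases h0 : m v = 0
    · rw [h0]
      exact Nat.zero_le _
    · have h2 : m v * wD p v ≤ W :=
        (Finset.single_le_sum (f := fun v => m v * wD p v) (fun _ _ => Nat.zero_le _)
          (Finsupp.mem_support_iff.2 h0)).trans hm
      have h3 := lt_wD (p := p) v
      have h4 : 1 ≤ m v := Nat.one_le_iff_ne_zero.2 h0
      have h5 : wD p v ≤ W := le_trans (Nat.le_mul_of_pos_left _ h4) h2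
      have h6 : m v ≤ W := le_trans (Nat.le_mul_of_pos_right _ (by omega)) h2
      rw [Finsupp.finsetSum_apply]
      refine h6.trans ?_
      have h7 := Finset.single_le_sum (s := Finset.range W ×ˢ Finset.range W)
        (f := fun u => (Finsupp.single u W : Ex) v) (fun _ _ => Nat.zero_le _)
        (a := v) (by rw [Finset.mem_product, Finset.mem_range, Finset.mem_range]
                     constructor <;> omega)
      simpa using h7
  exact (Set.finite_Iic _).subset h1

/-- finitely many words with given length and weight -/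
theorem finite_lev_le (n W : ℕ) : {l : List Ex | l.length = n ∧ lev (wD p) l ≤ W}.Finite := by
  refine (finite_words (finite_wD_le (p := p) W) n).subset ?_
  rintro l ⟨h, h2⟩
  exact ⟨h, fun m hm => (sum_le_lev hm).trans h2⟩

/-- a function on reduced words of length `n` and weight `W` is the symbol of a cochain of
weight `W` -/
theorem exists_symb_WtP {f : List Ex → ZMod p} {W : ℕ}
    (hf : ∀ l, f l ≠ 0 → l.length = n ∧ Red p l ∧ lev (wD p) l = W) :
    ∃ z ∈ WtP p n W, symb n z = f := by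
  obtain ⟨z, hz⟩ := exists_symb (n := n) (f := f) (fun l hl => ⟨(hf l hl).1, (hf l hl).2.1⟩)
    ((finite_lev_le (p := p) n W).subset fun l hl =>
      ⟨(hf l hl).1, (hf l hl).2.2.le⟩)
  refine ⟨z, mem_WtP_iff.2 fun l hl => ?_, hz⟩
  rw [hz] at hl
  exact (hf l hl).2.2

theorem mem_Fil_iff {μ : ℕ × ℕ → ℕ} {m : ℕ} {z : CobP p n} :
    z ∈ Fil μ n m ↔ ∀ l, symb n z l ≠ 0 → lev μ l < m := by
  refine ⟨fun h l hl => ?_, fun h l hl => ?_⟩
  · by_contra hlt
    exact hl (h l (not_lt.1 hlt))
  · by_contra hne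
    exact absurd (h l hne) (not_lt.2 hl)

omit hp in
theorem Fil_mono {μ : ℕ × ℕ → ℕ} {m m' : ℕ} (h : m ≤ m') :
    (Fil μ n m : Submodule (ZMod p) (CobP p n)) ≤ Fil μ n m' :=
  fun _ hz l hl => hz l (h.trans hl)

theorem mem_Fil_zero {μ : ℕ × ℕ → ℕ} {z : CobP p n} : z ∈ Fil μ n 0 ↔ z = 0 := by
  rw [← symb_eq_zero_iff]
  exact ⟨fun h => funext fun l => h l (Nat.zero_le _), fun h l _ => congrFun h l⟩

theorem Fil_zero (μ : ℕ × ℕ → ℕ) : (Fil μ n 0 : Submodule (ZMod p) (CobP p n)) = ⊥ := by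
  ext z
  rw [mem_Fil_zero, Submodule.mem_bot]

theorem finite_symb (z : CobP p n) : {l | symb n z l ≠ 0}.Finite := by
  refine (Set.Finite.image (ofE p n) (Finset.finite_toSet z.support)).subset ?_
  intro l hl
  obtain ⟨h1, h2, h3⟩ := symb_ne_zero hl
  exact ⟨toE p n l, MvPolynomial.mem_support_iff.2 h3, ofE_toE h1 h2⟩

theorem exists_mem_Fil (μ : ℕ × ℕ → ℕ) (z : CobP p n) : ∃ m, z ∈ Fil μ n m := by
  refine ⟨(finite_symb z).toFinset.sup (lev μ) + 1, mem_Fil_iff.2 fun l hl => ?_⟩
  exact Nat.lt_succ_of_le (Finset.le_sup (f := lev μ) ((finite_symb z).mem_toFinset.2 hl))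

/-- a homogeneous cochain splits at every level into homogeneous parts -/
theorem exists_split {μ : ℕ × ℕ → ℕ} {W : ℕ} (m : ℕ) {z : CobP p n} (hz : z ∈ WtP p n W) :
    ∃ x ∈ WtP p n W, x ∈ Fil μ n m ∧ (∀ l, m ≤ lev μ l → symb n (z - x) l = symb n z l) ∧
      ∀ l, lev μ l < m → symb n (z - x) l = 0 := by
  classical
  obtain ⟨x, hx, hs⟩ := exists_symb_WtP (p := p) (n := n) (W := W)
    (f := fun l => if lev μ l < m then symb n z l else 0) (by
      intro l hl
      split_ifs at hl
      · obtain ⟨h1, h2, _⟩ := symb_ne_zero hl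
        exact ⟨h1, h2, mem_WtP_iff.1 hz l hl⟩
      · exact absurd rfl hl)
  have hs' : ∀ l, symb n x l = if lev μ l < m then symb n z l else 0 := fun l => congrFun hs l
  refine ⟨x, hx, fun l hl => ?_, fun l hl => ?_, fun l hl => ?_⟩
  · rw [hs', if_neg (not_lt.2 hl)]
  · rw [symb_sub, hs', if_neg (not_lt.2 hl), sub_zero]
  · rw [symb_sub, hs', if_pos hl, sub_self]

end Vale.Agent.P257.H604

end
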