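import Vale.Agent.P257.H254.Words
import Vale.Agent.P257.H254.PageP
import Vale.Agent.P257.H327.EI
import Vale.Agent.P257.H545.VanP

/-!
# P257 (helper604): the group `α`, `Ext^{5, 2p^2+3p+3} = 0`
-/

noncomputable section

namespace Vale.Agent.P257.H604

open Vale.Agent.P257.H93 Vale.Agent.P257.H134 Vale.Agent.P257.H632 Vale.Agent.P257.H254
  Vale.Agent.P257.H941 Vale.Agent.P257.H327

variable {p : ℕ} [hp : Fact p.Prime]

/-- the weights `2i + 1` -/
def muA (v : ℕ × ℕ) : ℕ := 2 * v.1 + 1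

omit hp in
theorem isMu_muA (hp2 : 2 ≤ p) : IsMu p muA where
  split i j a ha := by simp only [muA]; omega
  frob i j := by simp only [muA]; nlinarith

/-- no monomials: a cocycle is a coboundary, with control of the filtration -/
theorem exists_cob {μ : ℕ × ℕ → ℕ} (hμ : IsMu p μ) (hp2 : 2 < p) {s W : ℕ}
    (hno : ∀ r : EI (ℕ × ℕ), degM r = s + 1 → levM p (wD p) r ≠ W) :
    ∀ (m : ℕ) (c : CobP p (s + 1)), c ∈ Fil μ (s + 1) m → c ∈ WtP p (s + 1) W →
      dP (s + 1) c = 0 → ∃ y ∈ Fil μ s m, y ∈ WtP p s W ∧ c = dP s y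
  | 0, c, hc, _, _ => by
    refine ⟨0, Submodule.zero_mem _, Submodule.zero_mem _, ?_⟩
    rw [Fil_zero_eq, Submodule.mem_bot] at hc
    rw [hc, map_zero]
  | m + 1, c, hc, hcW, hd => by
    obtain ⟨y, hy, hyW, hz⟩ := exists_sub_mem hμ hp2 hc hcW
      (by rw [hd]; exact Submodule.zero_mem _) (fun r h1 h2 _ => absurd h2 (hno r h1))
    obtain ⟨y', hy', hyW', hz'⟩ := exists_cob hμ hp2 hno m (c - dP s y) hz
      (Submodule.sub_mem _ hcW (dP_mem_WtP hyW)) (by rw [map_sub, hd, dP_dP, sub_zero])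
    refine ⟨y + y', Submodule.add_mem _ hy (Fil_mono (Nat.le_succ m) hy'),
      Submodule.add_mem _ hyW hyW', ?_⟩
    rw [map_add, ← hz']
    abel

theorem dP_one : dP 0 (1 : CobP p 0) = 0 := by
  apply ext_evG
  intro B _ _ g
  rw [evG_dP, map_zero]
  simp

theorem sg_ne_zero (v : ℕ × ℕ) (S : Finset (ℕ × ℕ)) : ((sg v S : ℤ) : ZMod p) ≠ 0 := by
  intro h
  have h1 := congrArg (Int.cast : ℤ → ZMod p) (sg_mul_self v S)
  rw [Int.cast_mul, h, mul_zero, Int.cast_one] at h1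
  exact zero_ne_one h1

/-- the exterior monomial `h_{10} h_{20} h_{30}` -/
def e3 : Finset (ℕ × ℕ) := {(0, 0), (1, 0), (2, 0)}

/-- the leading word -/
def w3 : List Lt := [.h (2, 0), .h (1, 0), .h (0, 0)]

theorem cw_w3_d (hp2 : 2 < p) : dP 3 (cw p w3 : CobP p 3) ∈ Fil muA 4 9 := by
  have hμ := isMu_muA (p := p) hp2.le
  set z1 : CobP p 1 := cw p [.h (0, 0)] with hz1
  set z2 : CobP p 2 := RH (1, 0) 1 z1 with hz2
  have e1 : dP 1 z1 = 0 := by
    have h1 := dP_RH (p := p) 0 0 (1 : CobP p 0)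
    rw [dP_one, map_zero, Finset.range_zero, Finset.sum_empty, smul_zero, sub_zero] at h1
    exact h1
  have m1 : z1 ∈ Fil muA 1 2 := cw_mem hμ [.h (0, 0)]
  have m2 : z2 ∈ Fil muA 2 5 := cw_mem hμ [.h (1, 0), .h (0, 0)]
  have e2 : dP 2 z2 ∈ Fil muA 3 4 := by
    have h1 := dP_RH (p := p) 1 0 z1
    rw [e1, map_zero, zero_sub, Finset.sum_range_one] at h1
    rw [hz2]
    refine (congrArg (· ∈ Fil muA 3 4) h1).mpr ?_
    refine Submodule.neg_mem _ ?_
    refine zsmul_mem ?_ _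
    exact RH_mem hμ (RH_mem hμ m1 (0, 0)) (0, 1)
  have h3 : (cw p w3 : CobP p 3) = RH (2, 0) 2 z2 := rfl
  have h4 := dP_RH (p := p) 2 0 z2
  rw [Finset.sum_range_succ, Finset.sum_range_one] at h4
  rw [h3]
  refine (congrArg (· ∈ Fil muA 4 9) h4).mpr ?_
  refine Submodule.sub_mem _ (RH_mem hμ e2 (2, 0)) (zsmul_mem (Submodule.add_mem _ ?_ ?_) _)
  · exact RH_mem hμ (RH_mem hμ m2 (0, 0)) (1, 1)
  · exact RH_mem hμ (RH_mem hμ m2 (1, 0)) (0, 2)

/-- a cocycle with leading monomial `h_{10} h_{20} h_{30}` -/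
theorem exists_G3 (h11 : 11 ≤ p) : ∃ G : CobP p 3, G ∈ WtP p 3 (p ^ 2 + 2 * p + 3) ∧
    G ∈ Fil muA 3 10 ∧ dP 3 G = 0 ∧ ∃ e : ZMod p, e ≠ 0 ∧
    ∀ r : EI (ℕ × ℕ), 9 ≤ levM p muA r → Th 3 r G = if r = (e3, 0) then e else 0 := by
  have hp2 : 2 < p := by omega
  have hμ := isMu_muA (p := p) hp2.le
  have hW : (cw p w3 : CobP p 3) ∈ WtP p 3 (p ^ 2 + 2 * p + 3) := by
    have h1 := cw_mem_WtP (p := p) w3
    have h2 : lw p (wD p) w3 = p ^ 2 + 2 * p + 3 := by
      simp only [w3, lw, wD, Finset.sum_range_succ, Finset.sum_range_zero]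
      ring
    rw [h2] at h1
    exact h1
  have hT : ∀ r : EI (ℕ × ℕ), 9 ≤ levM p muA r → Th 3 r (cw p w3 : CobP p 3) =
      if r = (e3, 0) then (sn w3 : ZMod p) else 0 := by
    intro r hr
    have h1 := Th_cw hμ hp2 w3 r (by exact hr)
    have h2 : (hs w3, bs w3) = (e3, 0) := by
      refine Prod.ext ?_ rfl
      decide
    rw [h2] at h1
    exact h1
  obtain ⟨z, hW, hm, hdz, hT⟩ : ∃ z : CobP p 3, z ∈ WtP p 3 (p ^ 2 + 2 * p + 3) ∧
      z ∈ Fil muA 3 10 ∧ dP 3 z ∈ Fil muA 4 9 ∧ ∀ r : EI (ℕ × ℕ), 9 ≤ levM p muA r →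
      Th 3 r z = if r = (e3, 0) then (sn w3 : ZMod p) else 0 :=
    ⟨cw p w3, hW, cw_mem hμ w3, cw_w3_d hp2, hT⟩
  obtain ⟨y, hy, hyW, hz⟩ := exists_cob hμ hp2 (s := 3) (W := p ^ 2 + 2 * p + 3)
    (fun r h1 h2 => no_monE_4 p h11 r h1 h2) 9 (dP 3 z) hdz (dP_mem_WtP hW) (dP_dP 3 _)
  refine ⟨z - y, Submodule.sub_mem _ hW hyW,
    Submodule.sub_mem _ hm (Fil_mono (show 9 ≤ 10 by norm_num) hy), ?_,
    (sn w3 : ZMod p), ?_, ?_⟩
  · rw [map_sub, hz, sub_self]
  · have : sn w3 = 1 ∨ sn w3 = -1 := by decide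
    rcases this with h | h <;> rw [h] <;> simp
  · intro r hr
    rw [Th_sub, Th_of_mem hy hr, sub_zero, hT r hr]

/-! ### the group `α` -/

section alpha

/-- the weight of `α` -/
def WA (p : ℕ) : ℕ := 2 * p ^ 2 + 3 * p + 3

/-- the monomial `h_{10} h_{20} h_{30} b_{20}` -/
def M1 : EI (ℕ × ℕ) := (e3, Finsupp.single (1, 0) 1)

/-- the monomial `h_{10} h_{11} h_{12} h_{20} h_{30}` -/
def M2 : EI (ℕ × ℕ) := (insert (0, 2) (insert (0, 1) e3), 0)

/-- the monomial `h_{10} h_{11} h_{20} h_{30} b_{11}` -/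
def M3 : EI (ℕ × ℕ) := (insert (0, 1) e3, Finsupp.single (0, 1) 1)

theorem lev_M1 (p : ℕ) : levM p muA M1 = 9 + p * 3 := by
  have h : ∑ v ∈ e3, muA v = 9 := by decide
  rw [levM, M1, h, sum_single']
  simp [muA]

theorem lev_M2 (p : ℕ) : levM p muA M2 = 11 := by
  have h : ∑ v ∈ (insert (0, 2) (insert (0, 1) e3)), muA v = 11 := by decide
  rw [levM, M2, h]
  simp

theorem lev_M3 (p : ℕ) : levM p muA M3 = 10 + p := by
  have h : ∑ v ∈ (insert (0, 1) e3), muA v = 10 := by decide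
  rw [levM, M3, h, sum_single']
  simp [muA]

theorem levW_M3 (p : ℕ) : levM p (wD p) M3 = WA p := by
  have h : ∑ v ∈ (insert (0, 1) e3), wD p v = p ^ 2 + 3 * p + 3 := by
    simp [e3, wD, Finset.sum_range_succ]
    ring
  rw [levM, M3, h, sum_single', WA]
  simp [wD]
  ring

theorem deg_M3 : degM M3 = 6 := by
  have h : (insert (0, 1) e3 : Finset (ℕ × ℕ)).card = 4 := by decide
  rw [degM, M3, h]
  simp

theorem alpha_aux (h11 : 11 ≤ p) : ∀ c ∈ WtP p 5 (WA p), dP 5 c = 0 →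
    ∃ y ∈ WtP p 4 (WA p), c = dP 4 y := by
  have hp2 : 2 < p := by omega
  have hμ := isMu_muA (p := p) hp2.le
  obtain ⟨G, hGW, hGF, hGd, e, he, hG⟩ := exists_G3 h11
  have P := page hμ hp2 4 (WA p) (fun n => Fil_zero_eq n) (fun _ w => exists_mem_Fil muA w)
  set U : CobP p 5 := RB (1, 0) 3 G with hU
  set A : CobP p 4 := RH (1, 1) 3 G with hA
  have hUW : U ∈ WtP p 5 (WA p) := by
    have h1 := cupP_mem_WtP hGW (Submodule.neg_mem _ (bP_mem_WtP (p := p) 1 0))
    have h2 : p ^ 2 + 2 * p + 3 + p * wD p (1, 0) = WA p := by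
      simp only [wD, Finset.sum_range_succ, Finset.sum_range_zero, WA]
      ring
    rw [h2] at h1
    exact h1
  have hAW : A ∈ WtP p 4 (WA p) := by
    have h1 := cupP_mem_WtP hGW (hP_mem_WtP (p := p) 1 1)
    have h2 : p ^ 2 + 2 * p + 3 + wD p (1, 1) = WA p := by
      simp only [wD, Finset.sum_range_succ, Finset.sum_range_zero, WA]
      ring
    rw [h2] at h1
    exact h1
  have hUF : U ∈ Fil muA 5 (9 + p * 3 + 1) := RB_mem hμ hGF (1, 0)
  -- the coboundary of `A`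
  have hdA : dP 4 A = RH (0, 2) 4 (RH (0, 1) 3 G) := by
    have h1 := dP_RH (p := p) 1 1 G
    rw [hGd, map_zero, Finset.sum_range_one] at h1
    refine h1.trans ?_
    simp
  have hdAF : dP 4 A ∈ Fil muA 5 12 := by
    rw [hdA]
    exact RH_mem hμ (RH_mem hμ hGF (0, 1)) (0, 2)
  -- the coboundary of `U`
  have hdU : dP 5 U = (RB (0, 1) 4 (RH (0, 1) 3 G) : CobP p 6) -
      RH (0, 2) 5 (RB (0, 0) 3 G) := by
    have h1 := dP_RB (p := p) 1 0 G rfl
    rw [hGd, map_zero, Finset.sum_range_one, map_zero, zero_add] at h1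
    refine h1.trans ?_
    have h2 : (castP rfl (RB (1 - (0 + 1), 0 + 0 + 1) (3 + 1) (RH (0, 0 + 1) 3 G)) : CobP p 6) =
      RB (0, 1) 4 (RH (0, 1) 3 G) := castP_self rfl _
    refine (congrArg (fun t => ((-1 : ℤ) ^ 3) • ((RH (0, 2) 5 (RB (0, 0) 3 G) : CobP p 6) - t))
      h2).trans ?_
    simp
  have hdUF : dP 5 U ∈ Fil muA 6 (10 + p + 1) := by
    rw [hdU]
    refine Submodule.sub_mem _ ?_ ?_
    · have h1 := RB_mem hμ (RH_mem hμ hGF (0, 1)) (0, 1)
      have h2 : 9 + muA (0, 1) + p * muA (0, 1) + 1 = 10 + p + 1 := by simp [muA]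
      rw [h2] at h1
      exact h1
    · have h1 := RH_mem hμ (RB_mem hμ hGF (0, 0)) (0, 2)
      have h2 : 9 + p * muA (0, 0) + muA (0, 2) + 1 = 10 + p + 1 := by simp [muA]; ring
      rw [h2] at h1
      exact h1
  -- the functionals
  have t1 : Th 5 M1 U = e := by
    rw [hU]
    refine (Th_RB hμ hp2 hGF (1, 0) M1 (by rw [lev_M1]; exact le_rfl)).trans ?_
    rw [if_pos (by simp [M1]), hG _ (by
      rw [levM]
      have h : ∑ v ∈ e3, muA v = 9 := by decide
      simp [M1, h])]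
    simp [M1]
  have hG0 : Th 3 (e3, 0) G = e := by
    rw [hG _ (by
      have h : ∑ v ∈ e3, muA v = 9 := by decide
      simp [levM, h]), if_pos rfl]
  have hRH : Th 4 (insert (0, 1) e3, 0) (RH (0, 1) 3 G) ≠ 0 := by
    refine (Th_RH hp2 G (insert (0, 1) e3, 0) (0, 1)).trans_ne ?_
    rw [if_pos (Finset.mem_insert_self _ _)]
    have h : (insert (0, 1) e3 : Finset (ℕ × ℕ)).erase (0, 1) = e3 := by decide
    simp only [h, hG0]
    exact mul_ne_zero (sg_ne_zero _ _) he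
  have t2 : Th 5 M2 (dP 4 A) ≠ 0 := by
    rw [hdA]
    refine (Th_RH hp2 (RH (0, 1) 3 G) M2 (0, 2)).trans_ne ?_
    rw [if_pos (show (0, 2) ∈ M2.1 from Finset.mem_insert_self _ _)]
    have h : M2.1.erase (0, 2) = insert (0, 1) e3 := by decide
    rw [h]
    exact mul_ne_zero (sg_ne_zero _ _) hRH
  have t3 : Th 6 M3 (dP 5 U) ≠ 0 := by
    rw [hdU, Th_sub]
    have h1 : Th 6 M3 (RH (0, 2) 5 (RB (0, 0) 3 G)) = 0 := by
      refine (Th_RH hp2 (RB (0, 0) 3 G) M3 (0, 2)).trans ?_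
      rw [if_neg]
      decide
    rw [h1, sub_zero]
    refine (Th_RB hμ hp2 (RH_mem hμ hGF (0, 1)) (0, 1) M3 (by
      rw [lev_M3]
      simp [muA])).trans_ne ?_
    rw [if_pos (by simp [M3])]
    simp only [M3, tsub_self]
    exact hRH
  intro c hc hd
  have hR : ∀ r : MonSW p 5 (WA p), r.1 = M1 ∨ r.1 = M2 := by
    intro r
    rcases enumE_alpha p h11 r.1 r.2.1 r.2.2 with h | h
    · exact Or.inl h
    · refine Or.inr (h.trans (Prod.ext ?_ rfl))
      decide
  refine P.echelon (fun x => dL_dL 4 x) (ι := Unit) (fun _ => U)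
    (fun _ => 9 + p * 3) (fun _ => 10 + p) (fun _ => hUW) (fun _ => hUF) (fun _ => hdUF)
    (fun _ => by omega) ?_ ?_ c hc hd
  · intro n w hw _ _
    by_cases hn : n = 9 + p * 3
    · refine ⟨fun _ => Th 5 M1 w / e, fun _ _ => hn.symm, 0, Submodule.zero_mem _,
        by rw [map_zero]; exact Submodule.zero_mem _, fun r hr => ?_⟩
      rcases hR r with h | h
      · simp only [Finset.univ_unique, Finset.sum_singleton, ThL_apply, map_zero, add_zero, h, t1]
        rw [div_mul_cancel₀ _ he]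
      · exfalso
        simp only [h, lev_M2] at hr
        omega
    · by_cases hn' : n = 11
      · subst hn'
        refine ⟨0, fun _ h => absurd rfl h, (Th 5 M2 w / Th 5 M2 (dP 4 A)) • A,
          Submodule.smul_mem _ _ hAW, ?_, fun r hr => ?_⟩
        · rw [map_smul]
          exact Submodule.smul_mem _ _ hdAF
        · rcases hR r with h | h
          · exfalso
            simp only [h, lev_M1] at hr
            omega
          · simp only [Pi.zero_apply, zero_mul, Finset.sum_const_zero, zero_add, map_smul,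
              smul_eq_mul, ThL_apply, dL_apply, h]
            rw [div_mul_cancel₀ _ t2]
      · refine ⟨0, fun _ h => absurd rfl h, 0, Submodule.zero_mem _,
          by rw [map_zero]; exact Submodule.zero_mem _, fun r hr => ?_⟩
        exfalso
        rcases hR r with h | h
        · simp only [h, lev_M1] at hr
          omega
        · simp only [h, lev_M2] at hr
          omega
  · intro L c hc h
    funext u
    by_contra hu
    have hu' : c u ≠ 0 := hu
    have h1 := h ⟨M3, deg_M3, levW_M3 p⟩ (by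
      change levM p muA M3 = L
      rw [lev_M3]
      exact hc u hu')
    simp only [Finset.univ_unique, Finset.sum_singleton] at h1
    exact mul_ne_zero hu' t3 h1

/-- **The group `α` vanishes.** -/
theorem vanP_alpha (h11 : 11 ≤ p) :
    H545.VanP p 5 (((p : ℤ) - 1) * (2 * p ^ 2 + 3 * p + 3)) := by
  have hw : ((p : ℤ) - 1) * (2 * p ^ 2 + 3 * p + 3) = ((p - 1 : ℕ) : ℤ) * (WA p : ℤ) := by
    rw [WA, Nat.cast_sub (by omega)]
    push_cast
    ring
  rw [hw]
  intro c hc hd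
  obtain ⟨y, hy, h⟩ := alpha_aux h11 c (mem_WtP.2 hc) hd
  exact ⟨y, mem_WtP.1 hy, h.symm⟩

end alpha

end Vale.Agent.P257.H604

end
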