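import Vale.Agent.P251.X.UniqMon
import Vale.Agent.P251.M.BUPi
import Vale.Agent.P251.S.TelTens

/-!
# P257 (helper604): `p`-localization

* `LocObj p Z` : the integers prime to `p` are invertible on `Z`;
* `bij_tel'`, `locObj_tel`, `exists_S` : the `p`-local unit, a commutative monoid;
* `exists_pLoc` : the `p`-localization of a commutative monoid.
-/

open CategoryTheory MonoidalCategory Limits Pretriangulated MonObj
open Vale.Agent.P251.T Vale.Agent.P251.S Vale.Agent.P251.X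

universe v u

set_option linter.unusedSectionVars false

namespace Vale.Agent.P257.H604

/-! ### integers prime to `p` -/

/-- the sequence `1, 2, 3, …` with the multiples of `p` replaced by `1` -/
def pf (p n : ℕ) : ℤ := if p ∣ n + 1 then 1 else ((n + 1 : ℕ) : ℤ)

/-- the products of `pf` -/
def pP (p n k : ℕ) : ℤ := ∏ i ∈ Finset.range k, pf p (n + i)

@[simp] theorem pP_zero (p n : ℕ) : pP p n 0 = 1 := rfl

theorem pP_succ (p n k : ℕ) : pP p n (k + 1) = pP p n k * pf p (n + k) :=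
  Finset.prod_range_succ _ _

theorem pP_add (p n k l : ℕ) : pP p n (k + l) = pP p n k * pP p (n + k) l := by
  rw [pP, Finset.prod_range_add, pP, pP]
  simp only [Nat.add_assoc]

theorem pf_not_dvd {p : ℕ} (hp : p.Prime) (n : ℕ) : ¬ (p : ℤ) ∣ pf p n := by
  unfold pf
  split_ifs with h
  · intro h1
    exact hp.one_lt.ne' (Nat.dvd_one.1 (by exact_mod_cast h1))
  · rw [Int.natCast_dvd_natCast]
    exact h

theorem pP_not_dvd {p : ℕ} (hp : p.Prime) (n k : ℕ) : ¬ (p : ℤ) ∣ pP p n k := by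
  rw [pP, Prime.dvd_finsetProd_iff (Nat.prime_iff_prime_int.1 hp)]
  rintro ⟨i, _, h⟩
  exact pf_not_dvd hp _ h

theorem exists_dvd_pP {p : ℕ} (hp : p.Prime) {m : ℤ} (hm : ¬ (p : ℤ) ∣ m) (n : ℕ) :
    ∃ k c, pP p n k = m * c := by
  have hm0 : m.natAbs ≠ 0 := by
    rw [Int.natAbs_ne_zero]
    rintro rfl
    exact hm (dvd_zero _)
  have h1 : n + 1 ≤ m.natAbs * (n * p + 1) := by
    have h2 : n ≤ n * p := Nat.le_mul_of_pos_right _ hp.pos
    calc n + 1 ≤ n * p + 1 := by omega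
      _ ≤ _ := Nat.le_mul_of_pos_left _ (Nat.pos_of_ne_zero hm0)
  obtain ⟨i, hi⟩ := Nat.exists_eq_add_of_le h1
  have h2 : ¬ p ∣ n + i + 1 := by
    rw [show n + i + 1 = m.natAbs * (n * p + 1) by omega, hp.dvd_mul, not_or]
    refine ⟨?_, ?_⟩
    · rwa [← Int.natCast_dvd]
    · intro h
      have h3 : p ∣ 1 := (Nat.dvd_add_right (Dvd.intro_left n rfl)).1 h
      exact hp.one_lt.ne' (Nat.dvd_one.1 h3)
  refine ⟨i + 1, ?_⟩
  have h3 : m ∣ pP p n (i + 1) := by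
    rw [pP_succ, pf, if_neg h2]
    refine Dvd.dvd.mul_left ?_ _
    rw [← Int.natAbs_dvd, Int.natCast_dvd_natCast,
      show n + i + 1 = m.natAbs * (n * p + 1) by omega]
    exact dvd_mul_right _ _
  exact h3

/-! ### local objects -/

variable {T : Type u} [Category.{v} T] [Preadditive T]

/-- the integers prime to `p` are invertible on `Z` -/
def LocObj (p : ℕ) (Z : T) : Prop := ∀ m : ℤ, ¬ (p : ℤ) ∣ m → IsIso (m • 𝟙 Z)

theorem LocObj.exists_inv {p : ℕ} {Z : T} (h : LocObj p Z) {m : ℤ} (hm : ¬ (p : ℤ) ∣ m) :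
    ∃ j : Z ⟶ Z, m • j = 𝟙 Z := by
  have := h m hm
  refine ⟨inv (m • 𝟙 Z), ?_⟩
  have h2 := IsIso.hom_inv_id (m • 𝟙 Z)
  rwa [Preadditive.zsmul_comp, Category.id_comp] at h2

theorem LocObj.cancel {p : ℕ} {Z : T} (h : LocObj p Z) {m : ℤ} (hm : ¬ (p : ℤ) ∣ m) {X : T}
    {f g : X ⟶ Z} (hfg : m • f = m • g) : f = g := by
  have := h m hm
  rw [← cancel_mono (m • 𝟙 Z), Preadditive.comp_zsmul, Preadditive.comp_zsmul, Category.comp_id,
    Category.comp_id, hfg]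

theorem LocObj.of_iso {p : ℕ} {Z Z' : T} (h : LocObj p Z) (e : Z ≅ Z') : LocObj p Z' := by
  intro m hm
  obtain ⟨j, hj⟩ := h.exists_inv hm
  refine ⟨e.inv ≫ j ≫ e.hom, ?_, ?_⟩
  · rw [Preadditive.zsmul_comp, Category.id_comp, ← Preadditive.comp_zsmul,
      ← Preadditive.zsmul_comp, hj, Category.id_comp, Iso.inv_hom_id]
  · rw [Preadditive.comp_zsmul, Category.comp_id, ← Preadditive.comp_zsmul,
      ← Preadditive.zsmul_comp, hj, Category.id_comp, Iso.inv_hom_id]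

theorem LocObj.retract {p : ℕ} {Z Z' : T} (h : LocObj p Z) (i : Z' ⟶ Z) (r : Z ⟶ Z')
    (hir : i ≫ r = 𝟙 Z') : LocObj p Z' := by
  intro m hm
  obtain ⟨j, hj⟩ := h.exists_inv hm
  refine ⟨i ≫ j ≫ r, ?_, ?_⟩
  · rw [Preadditive.zsmul_comp, Category.id_comp, ← Preadditive.comp_zsmul,
      ← Preadditive.zsmul_comp, hj, Category.id_comp, hir]
  · rw [Preadditive.comp_zsmul, Category.comp_id, ← Preadditive.comp_zsmul,
      ← Preadditive.zsmul_comp, hj, Category.id_comp, hir]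

theorem LocObj.map {p : ℕ} {Z : T} (h : LocObj p Z) {T' : Type*} [Category* T'] [Preadditive T']
    (F : T ⥤ T') [F.Additive] : LocObj p (F.obj Z) := by
  intro m hm
  have := h m hm
  have h1 : m • 𝟙 (F.obj Z) = F.map (m • 𝟙 Z) := by
    rw [F.map_zsmul, CategoryTheory.Functor.map_id]
  rw [h1]
  infer_instance

/-! ### the telescope of the integers prime to `p` -/

variable [HasZeroObject T]
    [HasShift T ℤ] [∀ n : ℤ, (shiftFunctor T n).Additive] [Pretriangulated T] [IsTriangulated T]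
    [MonoidalCategory T] [SymmetricCategory T] [TensorTriangulated T] [MonoidalClosed T]
    [HasCoproducts.{0} T] [HasProducts.{0} T] [StableCat T]

theorem cptS (k : ℤ) : Vale.Agent.P251.S.IsCpt ((𝟙_ T)⟦k⟧) := by
  intro I Y f
  obtain ⟨s, g, h⟩ := Vale.Agent.P251.M.exists_sum_of_compact Y f (StableCat.compact k Y f)
  classical
  refine ⟨s, fun i => if hi : i ∈ s then g ⟨i, hi⟩ else 0, ?_⟩
  rw [h, ← Finset.sum_attach s]
  refine Finset.sum_congr rfl fun i _ => ?_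
  simp only [dif_pos i.2]

/-- The sequence `H ⟶ H ⟶ H ⟶ …` of the multiplications by integers prime to `p`. -/
abbrev locSeq (p : ℕ) (H : T) (n : ℕ) : H ⟶ H := pf p n • 𝟙 H

theorem trT_locSeq (p : ℕ) (H : T) (n k : ℕ) :
    trT (X := fun _ => H) (locSeq p H) n k = pP p n k • 𝟙 H := by
  induction k with
  | zero => simp
  | succ k ih =>
    rw [trT_succ, ih, pP_succ, Preadditive.zsmul_comp, Category.id_comp, smul_smul]

section tel

variable {p : ℕ} {H : T} (U : Tel (X := fun _ => H) (locSeq p H))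

theorem smul_ι' (n k : ℕ) : pP p n k • U.ι (n + k) = U.ι n := by
  rw [← U.trT_ι n k, trT_locSeq, Preadditive.zsmul_comp, Category.id_comp]

theorem smul_ι_zero' (k : ℕ) : pP p 0 k • U.ι k = U.ι 0 := by
  have h := smul_ι' U 0 k
  rwa [Nat.zero_add k] at h

theorem tel_zero_of_smul (hp : p.Prime) {W : T} (hW : Vale.Agent.P251.S.IsCpt W) {m : ℤ} (hm : ¬ (p : ℤ) ∣ m)
    (x : W ⟶ U.obj) (hx : m • x = 0) : x = 0 := by
  obtain ⟨n, b, rfl⟩ := U.exists_factor hW x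
  rw [← Preadditive.zsmul_comp] at hx
  obtain ⟨k, hk⟩ := U.exists_eq_zero hW (m • b) hx
  rw [trT_locSeq, Preadditive.comp_zsmul, Category.comp_id, smul_smul] at hk
  obtain ⟨l, c, hc⟩ := exists_dvd_pP hp hm (n + k)
  rw [← smul_ι' U n (k + l), pP_add, hc, Preadditive.comp_zsmul, ← Preadditive.zsmul_comp,
    show pP p n k * (m * c) = c * (pP p n k * m) by ring, mul_smul, hk, smul_zero, zero_comp]

theorem tel_exists_smul (hp : p.Prime) {W : T} (hW : Vale.Agent.P251.S.IsCpt W) {m : ℤ} (hm : ¬ (p : ℤ) ∣ m)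
    (y : W ⟶ U.obj) : ∃ x : W ⟶ U.obj, m • x = y := by
  obtain ⟨n, b, rfl⟩ := U.exists_factor hW y
  obtain ⟨k, c, hc⟩ := exists_dvd_pP hp hm n
  refine ⟨c • b ≫ U.ι (n + k), ?_⟩
  rw [smul_smul, ← hc, ← Preadditive.comp_zsmul, smul_ι']

theorem locObj_tel (hp : p.Prime) : LocObj p U.obj := by
  intro m hm
  refine Vale.Agent.P251.M.isIso_of_bijective_hom (fun k => (𝟙_ T)⟦k⟧)
    (fun k k' h => ⟨((shiftFunctorAdd' T k 1 k' h).app (𝟙_ T)).symm⟩)
    (fun X hX => StableCat.generator X hX) _ ?_ ?_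
  · intro k x hx
    rw [Preadditive.comp_zsmul, Category.comp_id] at hx
    exact tel_zero_of_smul U hp (cptS k) hm x hx
  · intro k y
    obtain ⟨x, hx⟩ := tel_exists_smul U hp (cptS k) hm y
    exact ⟨x, by rw [Preadditive.comp_zsmul, Category.comp_id, hx]⟩

/-- Restriction along the start of the telescope. -/
theorem bij_tel' (hp : p.Prime) {K : T} (hK : LocObj p K) (W : T) :
    Function.Bijective (fun g : U.obj ⊗ W ⟶ K => (U.ι 0 ▷ W) ≫ g) := by
  have hw : ∀ n, locSeq p H n ▷ W = pf p n • 𝟙 (H ⊗ W) := by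
    intro n
    rw [← id_whiskerRight]
    exact ((tensorRight W).map_zsmul ..)
  constructor
  · intro g g' h
    rw [← sub_eq_zero]
    replace h : (U.ι 0 ▷ W) ≫ (g - g') = 0 := by
      rw [Preadditive.comp_sub, sub_eq_zero]
      exact h
    refine (U.tensR W).eq_zero ?_ _ ?_
    · refine Vale.Agent.P251.S.lim1_of_surjective (A := fun _ => (H ⊗ W ⟶ K⟦(-1 : ℤ)⟧)) ?_
      intro n y
      obtain ⟨j, hj⟩ := (hK.map (shiftFunctor T (-1 : ℤ))).exists_inv (pf_not_dvd hp n)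
      refine ⟨y ≫ j, ?_⟩
      change locSeq p H n ▷ W ≫ _ = y
      rw [hw, Preadditive.zsmul_comp, Category.id_comp, ← Preadditive.comp_zsmul, hj]
      exact Category.comp_id _
    · intro n
      have h1 : pP p 0 n • ((U.ι n ▷ W) ≫ (g - g')) = 0 := by
        have h2 := congrArg (fun x => x ▷ W) (smul_ι_zero' U n)
        have h3 : (pP p 0 n • U.ι n) ▷ W = pP p 0 n • (U.ι n ▷ W) :=
          (tensorRight W).map_zsmul ..
        rw [h3] at h2
        rw [← Preadditive.zsmul_comp, h2, h]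
      change (U.ι n ▷ W) ≫ (g - g') = 0
      exact hK.cancel (pP_not_dvd hp 0 n) (by rw [h1, smul_zero])
  · intro y
    choose j hj using fun n : ℕ => hK.exists_inv (pf_not_dvd hp n)
    let d : ℕ → (K ⟶ K) := fun n => Nat.rec (𝟙 K) (fun n d => d ≫ j n) n
    have hd : ∀ n, d (n + 1) = d n ≫ j n := fun _ => rfl
    obtain ⟨l, hl⟩ := (U.tensR W).exists_desc (Z := K) (fun n => y ≫ d n) (by
      intro n
      change (locSeq p H n ▷ W) ≫ y ≫ d (n + 1) = y ≫ d n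
      rw [hw, Preadditive.zsmul_comp, Category.id_comp, ← Preadditive.comp_zsmul, hd]
      congr 1
      rw [← Preadditive.comp_zsmul, hj, Category.comp_id])
    exact ⟨l, (hl 0).trans (Category.comp_id y)⟩

end tel

/-! ### the `p`-local unit -/

/-- The `p`-local unit. -/
theorem exists_locUnit {p : ℕ} (hp : p.Prime) :
    ∃ (U : Tel (X := fun _ => 𝟙_ T) (locSeq p (𝟙_ T))) (_ : MonObj U.obj)
      (_ : IsCommMonObj U.obj), MonObj.one (X := U.obj) = U.ι 0 := by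
  let U : Tel (X := fun _ => 𝟙_ T) (locSeq p (𝟙_ T)) := tel _
  have hU := locObj_tel U hp
  obtain ⟨i1, i2, h⟩ := exists_commMon (U.ι 0) (bij_tel' U hp hU _) (bij_tel' U hp hU _)
    (bij_tel' U hp hU _)
  exact ⟨U, i1, i2, h⟩

/-! ### localization of monoids -/

/-- `l : R ⟶ Rp` is the `p`-localization, with all its properties -/
structure IsPLoc (p : ℕ) {R Rp : T} (l : R ⟶ Rp) : Prop where
  loc : LocObj p Rp
  bij : ∀ Z : T, LocObj p Z → ∀ W : T, Function.Bijective (fun f : Rp ⊗ W ⟶ Z => (l ▷ W) ≫ f)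
  frac : ∀ W : T, Vale.Agent.P251.S.IsCpt W → ∀ y : W ⟶ Rp, ∃ (m : ℤ) (x : W ⟶ R), ¬ (p : ℤ) ∣ m ∧ m • y = x ≫ l
  tor : ∀ W : T, Vale.Agent.P251.S.IsCpt W → ∀ x : W ⟶ R, x ≫ l = 0 → ∃ m : ℤ, ¬ (p : ℤ) ∣ m ∧ m • x = 0

/-- the `p`-localization of an object -/
theorem isPLoc_tel {p : ℕ} (hp : p.Prime) (R : T)
    (U : Tel (X := fun _ => 𝟙_ T) (locSeq p (𝟙_ T))) :
    IsPLoc p ((ρ_ R).inv ≫ R ◁ U.ι 0) where
  loc := (locObj_tel U hp).map (tensorLeft R)
  bij Z hZ W := by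
    have h1 := bij_tel' U hp hZ (R ⊗ W)
    have e1 : (ρ_ R).inv ≫ R ◁ U.ι 0 =
        (λ_ R).inv ≫ (U.ι 0 ▷ R) ≫ (β_ U.obj R).hom := by
      rw [BraidedCategory.braiding_naturality_left, braiding_tensorUnit_left, Category.assoc,
        Iso.inv_hom_id_assoc]
    have h2 : ∀ f : (R ⊗ U.obj) ⊗ W ⟶ Z, (((ρ_ R).inv ≫ R ◁ U.ι 0) ▷ W) ≫ f =
        (λ_ (R ⊗ W)).inv ≫ (U.ι 0 ▷ (R ⊗ W)) ≫ (α_ U.obj R W).inv ≫
          ((β_ U.obj R).hom ▷ W) ≫ f := by
      intro f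
      rw [e1, comp_whiskerRight, comp_whiskerRight, Category.assoc, Category.assoc,
        leftUnitor_inv_whiskerRight, Category.assoc, associator_inv_naturality_left_assoc]
    constructor
    · intro f g hfg
      dsimp only at hfg
      rw [h2, h2] at hfg
      have h3 := h1.1 ((cancel_epi (λ_ (R ⊗ W)).inv).1 hfg)
      rwa [cancel_epi, cancel_epi] at h3
    · intro y
      obtain ⟨g, hg⟩ := h1.2 ((λ_ (R ⊗ W)).hom ≫ y)
      refine ⟨((β_ U.obj R).inv ▷ W) ≫ (α_ U.obj R W).hom ≫ g, ?_⟩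
      dsimp only at hg ⊢
      rw [h2, hom_inv_whiskerRight_assoc, Iso.inv_hom_id_assoc, hg, Iso.inv_hom_id_assoc]
  frac W hW y := by
    obtain ⟨n, b, hb⟩ := (U.tensL R).exists_factor hW y
    change W ⟶ R ⊗ 𝟙_ T at b
    change b ≫ (R ◁ U.ι n) = y at hb
    refine ⟨pP p 0 n, b ≫ (ρ_ R).hom, pP_not_dvd hp 0 n, ?_⟩
    have h3 : R ◁ (pP p 0 n • U.ι n) = pP p 0 n • (R ◁ U.ι n) := (tensorLeft R).map_zsmul ..
    rw [← hb, ← Preadditive.comp_zsmul, ← h3, smul_ι_zero', Category.assoc, Iso.hom_inv_id_assoc]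
  tor W hW x hx := by
    have h1 : (x ≫ (ρ_ R).inv) ≫ (U.tensL R).ι 0 = 0 := by
      rw [Category.assoc]
      exact hx
    obtain ⟨k, hk⟩ := (U.tensL R).exists_eq_zero hW (n := 0) (x ≫ (ρ_ R).inv) h1
    refine ⟨pP p 0 k, pP_not_dvd hp 0 k, ?_⟩
    have h3 : ∀ n k, trT (X := fun _ : ℕ => R ⊗ 𝟙_ T) (fun n => R ◁ locSeq p (𝟙_ T) n) n k =
        pP p n k • 𝟙 (R ⊗ 𝟙_ T) := by
      intro n k
      have h4 : (fun n => R ◁ locSeq p (𝟙_ T) n) = locSeq p (R ⊗ 𝟙_ T) := by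
        funext n
        rw [locSeq, locSeq, ← MonoidalCategory.whiskerLeft_id]
        exact (tensorLeft R).map_zsmul ..
      rw [h4]
      exact trT_locSeq _ _ _ _
    have h5 : (x ≫ (ρ_ R).inv) ≫ trT (X := fun _ : ℕ => R ⊗ 𝟙_ T)
        (fun n => R ◁ locSeq p (𝟙_ T) n) 0 k = 0 := hk
    rw [h3, Preadditive.comp_zsmul, Category.comp_id, ← Preadditive.zsmul_comp] at h5
    rw [← cancel_mono (ρ_ R).inv, h5, zero_comp]

/-- **The `p`-localization of a commutative monoid.** -/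
theorem exists_isPLoc {p : ℕ} (hp : p.Prime) (R : T) [MonObj R] [IsCommMonObj R] :
    ∃ (Rp : T) (_ : MonObj Rp) (_ : IsCommMonObj Rp) (l : R ⟶ Rp) (_ : IsMonHom l),
      IsPLoc p l := by
  obtain ⟨U, i1, i2, h⟩ := exists_locUnit (T := T) hp
  refine ⟨R ⊗ U.obj, inferInstance, inferInstance, (ρ_ R).inv ≫ R ◁ U.ι 0, ?_,
    isPLoc_tel hp R U⟩
  rw [← h]
  have h1 : IsMonHom (η[U.obj]) :=
    { one_hom := Category.id_comp _
      mul_hom := by
        change (λ_ (𝟙_ T)).hom ≫ η[U.obj] = _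
        rw [MonoidalCategory.tensorHom_def', Category.assoc, MonObj.one_mul,
          leftUnitor_naturality] }
  infer_instance

theorem exists_pLoc {p : ℕ} (hp : p.Prime) (R : T) [MonObj R] [IsCommMonObj R] :
    ∃ (Rp : T) (_ : MonObj Rp) (_ : IsCommMonObj Rp) (l : R ⟶ Rp) (_ : IsMonHom l),
      LocObj p Rp ∧
      (∀ Z, LocObj p Z → ∀ W, Function.Bijective (fun f : Rp ⊗ W ⟶ Z => (l ▷ W) ≫ f)) ∧
      (∀ (n : ℤ) (y : (𝟙_ T)⟦n⟧ ⟶ Rp), ∃ (m : ℤ) (x : (𝟙_ T)⟦n⟧ ⟶ R),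
        ¬ (p : ℤ) ∣ m ∧ m • y = x ≫ l) ∧
      (∀ (n : ℤ) (x : (𝟙_ T)⟦n⟧ ⟶ R), x ≫ l = 0 → ∃ m : ℤ, ¬ (p : ℤ) ∣ m ∧ m • x = 0) := by
  obtain ⟨Rp, i1, i2, l, i3, h⟩ := exists_isPLoc hp R
  exact ⟨Rp, i1, i2, l, i3, h.loc, h.bij, fun n y => h.frac _ (cptS n) y,
    fun n x => h.tor _ (cptS n) x⟩

/-! ### extension of maps -/

section ext

variable {p : ℕ} {R Rp : T} {l : R ⟶ Rp} (h : IsPLoc p l)

include h

theorem IsPLoc.bij_unit {Z : T} (hZ : LocObj p Z) :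
    Function.Bijective (fun f : Rp ⟶ Z => l ≫ f) := by
  have h1 := h.bij Z hZ (𝟙_ T)
  constructor
  · intro f g hfg
    dsimp only at hfg
    have h2 : (ρ_ Rp).hom ≫ f = (ρ_ Rp).hom ≫ g := by
      apply h1.1
      dsimp only
      rw [rightUnitor_naturality_assoc, rightUnitor_naturality_assoc, hfg]
    exact (cancel_epi _).1 h2
  · intro y
    obtain ⟨g, hg⟩ := h1.2 ((ρ_ R).hom ≫ y)
    refine ⟨(ρ_ Rp).inv ≫ g, ?_⟩
    dsimp only at hg ⊢
    rw [rightUnitor_inv_naturality_assoc, hg, Iso.inv_hom_id_assoc]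

theorem IsPLoc.hom_ext {Z : T} (hZ : LocObj p Z) {f g : Rp ⟶ Z} (hfg : l ≫ f = l ≫ g) : f = g :=
  (h.bij_unit hZ).1 hfg

theorem IsPLoc.hom_ext₂ {Z : T} (hZ : LocObj p Z) {f g : Rp ⊗ Rp ⟶ Z}
    (hfg : (l ⊗ₘ l) ≫ f = (l ⊗ₘ l) ≫ g) : f = g := by
  apply (h.bij Z hZ Rp).1
  dsimp only
  rw [MonoidalCategory.tensorHom_def', Category.assoc, Category.assoc] at hfg
  have h3 := h.bij Z hZ R
  have h4 : (β_ R Rp).inv ≫ (l ▷ Rp) ≫ f = (β_ R Rp).inv ≫ (l ▷ Rp) ≫ g := by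
    apply h3.1
    dsimp only
    have h5 : ∀ f : Rp ⊗ Rp ⟶ Z, (l ▷ R) ≫ (β_ R Rp).inv ≫ (l ▷ Rp) ≫ f =
        (β_ R R).inv ≫ (R ◁ l) ≫ (l ▷ Rp) ≫ f := by
      intro f
      rw [← Category.assoc, ← Category.assoc ((β_ R R).inv)]
      congr 1
      simp
    rw [h5, h5, hfg]
  exact (cancel_epi _).1 h4

/-- extension of monoid maps -/
theorem IsPLoc.existsUnique_monHom [MonObj R] [MonObj Rp] [IsMonHom l] {K : T} [MonObj K]
    (hK : LocObj p K) (g : R ⟶ K) [IsMonHom g] :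
    ∃ (g' : Rp ⟶ K) (_ : IsMonHom g'), l ≫ g' = g := by
  obtain ⟨g', hg⟩ := (h.bij_unit hK).2 g
  dsimp only at hg
  refine ⟨g', ⟨?_, ?_⟩, hg⟩
  · rw [← IsMonHom.one_hom l, Category.assoc, hg, IsMonHom.one_hom]
  · apply h.hom_ext₂ hK
    rw [← IsMonHom.mul_hom_assoc l, hg, IsMonHom.mul_hom,
      MonoidalCategory.tensorHom_comp_tensorHom_assoc, hg]

end ext

end Vale.Agent.P257.H604
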