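import Vale.Agent.P257.H80.StBP
import Vale.Agent.P257.H80.RegB
import Vale.Agent.P257.H80.HazVV
import Vale.Agent.P257.H702.Change
import Vale.Agent.P257.H702.Final
import Vale.Agent.P257.H702.BPRing

/-!
# P257 (helper604): Smith-Toda complexes and Hazewinkel's generators
-/

open CategoryTheory MonoidalCategory Limits Pretriangulated MonObj

set_option linter.unusedSectionVars false

noncomputable section

namespace Vale.Agent.P257.H604

open Vale.Agent.P251 Vale.Agent.P251.T Vale.Agent.P251.I Vale.Agent.P251.X Vale.Agent.P251.S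
  Vale.Agent.P251.M Vale.Agent.P251.St Vale.Agent.P251.F Vale.Agent.P257.H314
  Vale.Agent.P257.H702 Vale.Agent.P257.H80
open Vale.Agent.P251.M.EvenSpheres

/-! ### ideals -/

theorem span_vv {B : Type*} [CommRing B] (p : ℕ) (F : Law B) (n : ℕ) :
    Ideal.span (Set.range fun i : Fin n => vv p i F) = Ih p n F := by
  rw [Ih]
  congr 1
  ext x
  constructor
  · rintro ⟨j, rfl⟩
    exact ⟨j, j.2, rfl⟩
  · rintro ⟨j, hj, rfl⟩
    exact ⟨⟨j, hj⟩, rfl⟩

theorem span_haz {B : Type*} [CommRing B] (p : ℕ) (Φ : MvPolynomial ℕ ℤ →+* B) (n : ℕ) :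
    Ideal.span (Set.range fun i : Fin (n + 1) => Φ (P257.St.vEl p i)) = HI p Φ n := by
  have h0 : Φ (P257.St.vEl p 0) = (p : B) := by
    rw [P257.St.vEl, ← MvPolynomial.algebraMap_eq]
    simp
  apply le_antisymm
  · rw [Ideal.span_le]
    rintro x ⟨⟨i, hi⟩, rfl⟩
    rcases i with _ | i
    · change Φ (P257.St.vEl p 0) ∈ HI p Φ n
      rw [h0]
      exact p_mem_HI p n
    · exact mem_HI p (show i < n by omega)
  · rw [HI, Ideal.span_le]
    rintro x (rfl | ⟨j, hj, rfl⟩)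
    · exact Ideal.subset_span ⟨⟨0, Nat.succ_pos n⟩, h0⟩
    · exact Ideal.subset_span ⟨⟨j + 1, Nat.succ_lt_succ hj⟩, rfl⟩

variable {T : SHCat} {S : Susp T} {R : RingSp T}

/-- the class of `v_i` -/
theorem of_hazV {p : ℕ} (hp : 1 ≤ p) {φ : ∀ n : ℕ, P257.St.VPoly p n →+ SHCat.Hom (S.obj (St.Cn n)) R.obj}
    {Φ : MvPolynomial ℕ ℤ →+* HRing (stdEven T.C) R.obj}
    (hΦ : ∀ (n : ℕ) (x : P257.St.VPoly p n), Φ (x : MvPolynomial ℕ ℤ) =
      HRing.of (stdEven T.C) R.obj n ((isoE S n).inv ≫ φ n x)) (i : ℕ) :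
    HRing.of (stdEven T.C) R.obj ((p ^ i : ℤ) - 1) ((spI S hp i).inv ≫ P257.St.hazV φ i) =
      Φ (P257.St.vEl p i) := by
  have h1 : (p ^ i : ℤ) - 1 = ((p ^ i - 1 : ℕ) : ℤ) := by
    rw [Nat.cast_sub (Nat.one_le_pow _ _ hp)]
    push_cast
    rfl
  rw [spI_inv (S := S) hp i h1, Category.assoc, of_cast]
  exact (hΦ (p ^ i - 1) ⟨P257.St.vEl p i, P257.St.vEl_mem p i⟩).symm

/-- **Hazewinkel's generators** generate the same ideals. -/
theorem isSmithToda_haz {p n : ℕ} [Fact p.Prime] {D : MUData T.C} {u : D.R ⟶ R.obj} [IsMonHom u]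
    {φ : ∀ n : ℕ, P257.St.VPoly p n →+ SHCat.Hom (S.obj (St.Cn n)) R.obj}
    {Φ : MvPolynomial ℕ ℤ →+* HRing (stdEven T.C) R.obj}
    (hlaw : lawOf u = (haz p).map Φ)
    (hΦ : ∀ (n : ℕ) (x : P257.St.VPoly p n), Φ (x : MvPolynomial ℕ ℤ) =
      HRing.of (stdEven T.C) R.obj n ((isoE S n).inv ≫ φ n x))
    {X : T.C} {i : 𝟙_ T.C ⟶ X} (H : CycK (vK D p u) (n + 1) i) :
    P257.St.IsSmithToda p n (P257.St.hazV φ) X := by
  have hp : 1 ≤ p := (Fact.out : p.Prime).one_le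
  have hI : Ideal.span (Set.range fun j : Fin (n + 1) =>
      HRing.of (stdEven T.C) R.obj ((p ^ (j : ℕ) : ℤ) - 1) (vK D p u j)) =
      Ideal.span (Set.range fun j : Fin (n + 1) => HRing.of (stdEven T.C) R.obj
        ((p ^ (j : ℕ) : ℤ) - 1) ((spI S hp j).inv ≫ P257.St.hazV φ j)) := by
    simp only [← vv_lawOf, of_hazV hp hΦ]
    rw [span_vv, hlaw, Ih_haz, span_haz]
  refine isSmithToda_of_cycK hp (w := fun i => (spI S hp i).inv ≫ P257.St.hazV φ i)
    (fun i => rfl) (H.congr ?_ ?_)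
  · intro j hj
    rw [inI_iff_mem_span (w := fun i => (p ^ i : ℤ) - 1), hI]
    exact Ideal.subset_span ⟨⟨j, hj⟩, rfl⟩
  · intro j hj
    rw [inI_iff_mem_span (w := fun i => (p ^ i : ℤ) - 1) (v := fun i => (spI S hp i).inv ≫
      P257.St.hazV φ i), ← hI]
    exact Ideal.subset_span ⟨⟨j, hj⟩, rfl⟩

end Vale.Agent.P257.H604

end
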